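import Vale.Agent.P284.H35.V14Spec
import Vale.Agent.P272.K.Inv.Hess

/-! # P284, block V14A (helper287): local lemmas -/

open scoped Manifold ContDiff Topology Pointwise ComplexConjugate ComplexOrder
open Filter Set Metric MeasureTheory

noncomputable section

namespace Vale.Agent.P284.H287.V

open Vale.Agent.P272.K Vale.Agent.P284.H248 Vale.Agent.P284.H894 Vale.Agent.P284.H894.G
open Vale.Agent.P284.H894.V Vale.Agent.P284.H35.V

variable {n : ℕ}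

lemma le_inf2 : (2 : WithTop ℕ∞) ≤ ∞ := by
  have : ((2 : ℕ∞) : WithTop ℕ∞) ≤ ((⊤ : ℕ∞) : WithTop ℕ∞) := WithTop.coe_le_coe.2 le_top
  exact this

lemma le_inf1 : (1 : WithTop ℕ∞) ≤ ∞ := by
  have : ((1 : ℕ∞) : WithTop ℕ∞) ≤ ((⊤ : ℕ∞) : WithTop ℕ∞) := WithTop.coe_le_coe.2 le_top
  exact this

lemma D1_nonneg (f : Cm n → ℝ) (z : Cm n) : 0 ≤ D1 f z :=
  Finset.sum_nonneg fun _ _ => by positivity

lemma D2_nonneg (f : Cm n → ℝ) (z : Cm n) : 0 ≤ D2 f z :=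
  Finset.sum_nonneg fun _ _ => Finset.sum_nonneg fun _ _ => by positivity

lemma D1_congr {f g : Cm n → ℝ} {z : Cm n} (h : f =ᶠ[𝓝 z] g) : D1 f z = D1 g z := by
  unfold D1
  refine Finset.sum_congr rfl fun j _ => ?_
  have h1 : (fun y => (f y : ℂ)) =ᶠ[𝓝 z] fun y => (g y : ℂ) := by
    filter_upwards [h] with y hy; rw [hy]
  rw [dz_congr h1]

lemma D2_congr {f g : Cm n → ℝ} {z : Cm n} (h : f =ᶠ[𝓝 z] g) : D2 f z = D2 g z := by
  unfold D2
  rw [cHess_congr h]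

lemma D1_zero (z : Cm n) : D1 (fun _ : Cm n => (0 : ℝ)) z = 0 := by
  simp [D1, dz_const]

lemma cHess_zero (z : Cm n) : cHess (fun _ : Cm n => (0 : ℝ)) z = 0 := by
  ext j k
  rw [cHess_apply]
  have : (dzb k fun _ : Cm n => (((0 : ℝ)) : ℂ)) = fun _ => 0 := by
    funext y; exact dzb_const _
  rw [this, dz_const]; rfl

lemma D2_zero (z : Cm n) : D2 (fun _ : Cm n => (0 : ℝ)) z = 0 := by
  simp [D2, cHess_zero]

lemma contAt_D1 {f : Cm n → ℝ} {z : Cm n} (hf : ContDiffAt ℝ ∞ f z) : ContinuousAt (D1 f) z := by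
  unfold D1
  refine tendsto_finsetSum _ fun j _ => ?_
  have h : ContDiffAt ℝ 1 (fun y => (f y : ℂ)) z :=
    (ofReal_contDiffAt hf).of_le le_inf1
  exact ((contDiffAt_dz (m := 0) (i := j) h (by norm_num)).continuousAt).norm.pow 2

lemma contAt_D2 {f : Cm n → ℝ} {z : Cm n} (hf : ContDiffAt ℝ ∞ f z) : ContinuousAt (D2 f) z := by
  unfold D2
  refine tendsto_finsetSum _ fun j _ => tendsto_finsetSum _ fun k _ => ?_
  have h : ContDiffAt ℝ 2 (fun y => (f y : ℂ)) z :=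
    (ofReal_contDiffAt hf).of_le le_inf2
  have h1 : ContDiffAt ℝ 1 (dzb k fun y => (f y : ℂ)) z := contDiffAt_dzb h (by norm_num)
  exact ((contDiffAt_dz (m := 0) (i := j) h1 (by norm_num)).continuousAt).norm.pow 2

lemma sq_norm_sum_le {ι : Type*} (s : Finset ι) (v : ι → ℝ) (x : ι → ℂ) :
    ‖∑ i ∈ s, (v i : ℂ) * x i‖ ^ 2 ≤ (∑ i ∈ s, v i ^ 2) * ∑ i ∈ s, ‖x i‖ ^ 2 := by
  have h1 : ‖∑ i ∈ s, (v i : ℂ) * x i‖ ≤ ∑ i ∈ s, |v i| * ‖x i‖ := by
    refine (norm_sum_le _ _).trans (le_of_eq ?_)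
    refine Finset.sum_congr rfl fun i _ => ?_
    rw [norm_mul, Complex.norm_real, Real.norm_eq_abs]
  calc ‖∑ i ∈ s, (v i : ℂ) * x i‖ ^ 2 ≤ (∑ i ∈ s, |v i| * ‖x i‖) ^ 2 := by
        gcongr
    _ ≤ (∑ i ∈ s, |v i| ^ 2) * ∑ i ∈ s, ‖x i‖ ^ 2 := Finset.sum_mul_sq_le_sq_mul_sq _ _ _
    _ = _ := by simp only [sq_abs]

lemma D1_comb {ι : Type*} (s : Finset ι) (v : ι → ℝ) (F : ι → Cm n → ℝ) (z : Cm n)
    (h : ∀ i ∈ s, ContDiffAt ℝ ∞ (F i) z) :
    D1 (fun y => ∑ i ∈ s, v i * F i y) z ≤ (∑ i ∈ s, v i ^ 2) * ∑ i ∈ s, D1 (F i) z := by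
  have hd : ∀ i ∈ s, DifferentiableAt ℝ (fun y => (F i y : ℂ)) z := fun i hi =>
    (ofReal_contDiffAt (h i hi)).differentiableAt (by simp)
  have h1 : ∀ j, dz j (fun y => ((∑ i ∈ s, v i * F i y : ℝ) : ℂ)) z =
      ∑ i ∈ s, (v i : ℂ) * dz j (fun y => (F i y : ℂ)) z := by
    intro j
    have h2 : (fun y => ((∑ i ∈ s, v i * F i y : ℝ) : ℂ)) =
        fun y => ∑ i ∈ s, (v i : ℂ) * (F i y : ℂ) := by
      funext y; push_cast; rfl
    rw [h2, dz_sum (F := fun i y => (v i : ℂ) * (F i y : ℂ)) s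
      fun i hi => (differentiableAt_const _).mul (hd i hi)]
    refine Finset.sum_congr rfl fun i hi => ?_
    rw [dz_const_mul _ (hd i hi)]
  calc D1 (fun y => ∑ i ∈ s, v i * F i y) z
      = ∑ j, ‖∑ i ∈ s, (v i : ℂ) * dz j (fun y => (F i y : ℂ)) z‖ ^ 2 := by
        unfold D1
        refine Finset.sum_congr rfl fun j _ => ?_
        rw [h1 j]
    _ ≤ ∑ j, (∑ i ∈ s, v i ^ 2) * ∑ i ∈ s, ‖dz j (fun y => (F i y : ℂ)) z‖ ^ 2 :=
        Finset.sum_le_sum fun j _ => sq_norm_sum_le s v _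
    _ = (∑ i ∈ s, v i ^ 2) * ∑ i ∈ s, D1 (F i) z := by
        unfold D1
        rw [← Finset.mul_sum, Finset.sum_comm]

lemma cHess_comb {ι : Type*} (s : Finset ι) (v : ι → ℝ) (F : ι → Cm n → ℝ) (z : Cm n)
    (h : ∀ i ∈ s, ContDiffAt ℝ ∞ (F i) z) (j k : Fin n) :
    cHess (fun y => ∑ i ∈ s, v i * F i y) z j k = ∑ i ∈ s, (v i : ℂ) * cHess (F i) z j k := by
  have h2' : ∀ i ∈ s, ContDiffAt ℝ 2 (fun y => (F i y : ℂ)) z := fun i hi =>
    (ofReal_contDiffAt (h i hi)).of_le le_inf2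
  have hev : ∀ᶠ y in 𝓝 z, ∀ i ∈ s, ContDiffAt ℝ 2 (fun y => (F i y : ℂ)) y := by
    rw [Finset.eventually_all]
    exact fun i hi => (h2' i hi).eventually (by simp)
  have h1 : (dzb k fun y => ((∑ i ∈ s, v i * F i y : ℝ) : ℂ)) =ᶠ[𝓝 z]
      fun y => ∑ i ∈ s, (v i : ℂ) * dzb k (fun y => (F i y : ℂ)) y := by
    filter_upwards [hev] with y hy
    have hd : ∀ i ∈ s, DifferentiableAt ℝ (fun y => (F i y : ℂ)) y := fun i hi =>
      (hy i hi).differentiableAt (by norm_num)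
    have h2 : (fun y => ((∑ i ∈ s, v i * F i y : ℝ) : ℂ)) =
        fun y => ∑ i ∈ s, (v i : ℂ) * (F i y : ℂ) := by
      funext y; push_cast; rfl
    rw [h2, dzb_sum (F := fun i y => (v i : ℂ) * (F i y : ℂ)) s
      fun i hi => (differentiableAt_const _).mul (hd i hi)]
    refine Finset.sum_congr rfl fun i hi => ?_
    rw [dzb_const_mul _ (hd i hi)]
  have hd2 : ∀ i ∈ s, DifferentiableAt ℝ (dzb k fun y => (F i y : ℂ)) z := fun i hi =>
    differentiableAt_dzb (h2' i hi)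
  rw [cHess_apply, dz_congr h1, dz_sum
    (F := fun i y => (v i : ℂ) * dzb k (fun y => (F i y : ℂ)) y) s
    fun i hi => (differentiableAt_const _).mul (hd2 i hi)]
  refine Finset.sum_congr rfl fun i hi => ?_
  rw [dz_const_mul _ (hd2 i hi), cHess_apply]

lemma D2_comb {ι : Type*} (s : Finset ι) (v : ι → ℝ) (F : ι → Cm n → ℝ) (z : Cm n)
    (h : ∀ i ∈ s, ContDiffAt ℝ ∞ (F i) z) :
    D2 (fun y => ∑ i ∈ s, v i * F i y) z ≤ (∑ i ∈ s, v i ^ 2) * ∑ i ∈ s, D2 (F i) z := by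
  calc D2 (fun y => ∑ i ∈ s, v i * F i y) z
      = ∑ j, ∑ k, ‖∑ i ∈ s, (v i : ℂ) * cHess (F i) z j k‖ ^ 2 := by
        unfold D2
        refine Finset.sum_congr rfl fun j _ => Finset.sum_congr rfl fun k _ => ?_
        rw [cHess_comb s v F z h]
    _ ≤ ∑ j, ∑ k, (∑ i ∈ s, v i ^ 2) * ∑ i ∈ s, ‖cHess (F i) z j k‖ ^ 2 :=
        Finset.sum_le_sum fun j _ => Finset.sum_le_sum fun k _ => sq_norm_sum_le s v _
    _ = (∑ i ∈ s, v i ^ 2) * ∑ i ∈ s, D2 (F i) z := by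
        unfold D2
        simp only [← Finset.mul_sum]
        congr 1
        rw [Finset.sum_comm (s := s)]
        refine Finset.sum_congr rfl fun j _ => ?_
        rw [Finset.sum_comm (s := s)]

lemma D1_le_two {f g : Cm n → ℝ} {z : Cm n} (hf : ContDiffAt ℝ ∞ f z)
    (hg : ContDiffAt ℝ ∞ g z) :
    D1 f z ≤ 2 * D1 (fun y => f y - g y) z + 2 * D1 g z := by
  have hF : DifferentiableAt ℝ (fun y => (f y : ℂ)) z :=
    (ofReal_contDiffAt hf).differentiableAt (by simp)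
  have hG : DifferentiableAt ℝ (fun y => (g y : ℂ)) z :=
    (ofReal_contDiffAt hg).differentiableAt (by simp)
  unfold D1
  rw [Finset.mul_sum, Finset.mul_sum, ← Finset.sum_add_distrib]
  refine Finset.sum_le_sum fun j _ => ?_
  have h1 : dz j (fun y => ((f y - g y : ℝ) : ℂ)) z =
      dz j (fun y => (f y : ℂ)) z - dz j (fun y => (g y : ℂ)) z := by
    rw [← dz_sub hF hG]
    congr 1
    funext y; push_cast; rfl
  rw [h1]
  set a := dz j (fun y => (f y : ℂ)) z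
  set b := dz j (fun y => (g y : ℂ)) z
  have h2 : ‖a‖ ≤ ‖a - b‖ + ‖b‖ := by
    calc ‖a‖ = ‖(a - b) + b‖ := by rw [sub_add_cancel]
      _ ≤ _ := norm_add_le _ _
  nlinarith [norm_nonneg a, norm_nonneg b, norm_nonneg (a - b), sq_nonneg (‖a - b‖ - ‖b‖)]

lemma fderiv_ofReal {f : Cm n → ℝ} {z : Cm n} (hf : DifferentiableAt ℝ f z) (v : Cm n) :
    fderiv ℝ (fun y => (f y : ℂ)) z v = (fderiv ℝ f z v : ℂ) := by
  have h := (Complex.ofRealCLM.hasFDerivAt (x := f z)).comp z hf.hasFDerivAt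
  rw [show (fun y => (f y : ℂ)) = (Complex.ofRealCLM : ℝ → ℂ) ∘ f from rfl, h.fderiv]
  rfl

lemma D1_eq {f : Cm n → ℝ} {z : Cm n} (hf : DifferentiableAt ℝ f z) :
    D1 f z = ∑ j, ((fderiv ℝ f z (Pi.single j 1)) ^ 2 +
      (fderiv ℝ f z (Pi.single j Complex.I)) ^ 2) / 4 := by
  unfold D1
  refine Finset.sum_congr rfl fun j _ => ?_
  unfold dz
  rw [fderiv_ofReal hf, fderiv_ofReal hf]
  set a := fderiv ℝ f z (Pi.single j 1)
  set b := fderiv ℝ f z (Pi.single j Complex.I)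
  rw [← Complex.normSq_eq_norm_sq, Complex.normSq_div]
  simp [Complex.normSq_apply]
  ring

/-- bound of `Σ D1` by directional derivatives -/
lemma sum_D1_le {ι : Type*} (s : Finset ι) (F : ι → Cm n → ℝ) (z : Cm n)
    (h : ∀ i ∈ s, DifferentiableAt ℝ (F i) z) (A : ℝ)
    (hA : ∀ e : Cm n, ‖e‖ ≤ 1 → ∑ i ∈ s, (fderiv ℝ (F i) z e) ^ 2 ≤ A) :
    ∑ i ∈ s, D1 (F i) z ≤ n * A / 2 := by
  have h1 : ∑ i ∈ s, D1 (F i) z = ∑ j : Fin n, ((∑ i ∈ s, (fderiv ℝ (F i) z (Pi.single j 1)) ^ 2) +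
      ∑ i ∈ s, (fderiv ℝ (F i) z (Pi.single j Complex.I)) ^ 2) / 4 := by
    rw [Finset.sum_congr rfl fun i hi => D1_eq (h i hi), Finset.sum_comm]
    refine Finset.sum_congr rfl fun j _ => ?_
    rw [← Finset.sum_add_distrib, Finset.sum_div]
  rw [h1]
  calc _ ≤ ∑ j : Fin n, A / 2 := by
        refine Finset.sum_le_sum fun j _ => ?_
        have h2 := hA (Pi.single j 1) (by rw [Pi.norm_single]; simp)
        have h3 := hA (Pi.single j Complex.I) (by rw [Pi.norm_single]; simp)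
        linarith
    _ = n * A / 2 := by
        rw [Finset.sum_const, Finset.card_univ, Fintype.card_fin, nsmul_eq_mul]; ring

/-! ### mollification of sums -/

lemma int_mo {δ : ℝ} {η f : Cm n → ℝ} (hη : ContDiff ℝ ∞ η)
    (h0 : ∀ t, δ ≤ ‖t‖ → η t = 0) {z : Cm n} (hf : ContinuousOn f (closedBall z δ)) :
    Integrable (fun t => η t * f (z + t)) := by
  have h1 : IntegrableOn (fun t => η t * f (z + t)) (closedBall 0 δ) := by
    refine ContinuousOn.integrableOn_compact (isCompact_closedBall _ _) ?_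
    refine hη.continuous.continuousOn.mul (hf.comp (by fun_prop) ?_)
    intro t ht
    rw [mem_closedBall, dist_eq_norm] at ht ⊢
    simpa using ht
  refine (integrableOn_iff_integrable_of_support_subset ?_).1 h1
  intro t ht
  rw [mem_closedBall, dist_zero_right]
  by_contra hc
  push Not at hc
  exact ht (by simp [h0 t hc.le])

lemma mo_comb {δ : ℝ} {η : Cm n → ℝ} (hη : ContDiff ℝ ∞ η)
    (h0 : ∀ t, δ ≤ ‖t‖ → η t = 0) {ι : Type*} (s : Finset ι) (v : ι → ℝ) (F : ι → Cm n → ℝ)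
    (z : Cm n) (hf : ∀ i ∈ s, ContinuousOn (F i) (closedBall z δ)) :
    mo η (fun y => ∑ i ∈ s, v i * F i y) z = ∑ i ∈ s, v i * mo η (F i) z := by
  unfold mo
  have h1 : ∀ t, η t * ∑ i ∈ s, v i * F i (z + t) = ∑ i ∈ s, v i * (η t * F i (z + t)) := by
    intro t
    rw [Finset.mul_sum]
    exact Finset.sum_congr rfl fun i _ => by ring
  simp only [h1]
  rw [integral_finsetSum s fun i hi => (int_mo hη h0 (hf i hi)).const_mul _]
  exact Finset.sum_congr rfl fun i _ => integral_const_mul _ _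

lemma mo_eq_zero {δ : ℝ} {η f : Cm n → ℝ} (h0 : ∀ t, δ ≤ ‖t‖ → η t = 0) {z : Cm n}
    (hf : ∀ y ∈ ball z δ, f y = 0) : mo η f z = 0 := by
  unfold mo
  rw [show (fun t => η t * f (z + t)) = fun _ => 0 from ?_]
  · simp
  funext t
  rcases le_or_gt δ ‖t‖ with h | h
  · rw [h0 t h, zero_mul]
  · rw [hf (z + t) (by rw [mem_ball, dist_eq_norm]; simpa using h), mul_zero]

end Vale.Agent.P284.H287.V
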