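import Vale.Agent.P284.H287.FibCon

/-!
# P284, row S5a (helper287): the component of the fibre as a `Coc`
-/

open scoped Manifold ContDiff Topology ComplexConjugate ComplexOrder
open Filter Set Metric

noncomputable section

namespace Vale.Agent.P284.H287.F

open Vale.Agent.P272.K Vale.Agent.P284.H894

namespace Alb

variable {n : ℕ} {G : Type} [Group G] {C : Coc n G} {N : ℕ} (A : Alb C N)

lemma c_one : A.c 1 = 0 := by
  have := A.c_mul 1 1
  rw [mul_one] at this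
  simpa using this

lemma c_inv (g : G) : A.c g⁻¹ = -A.c g := by
  have := A.c_mul g⁻¹ g
  rw [inv_mul_cancel, c_one] at this
  exact (neg_eq_of_add_eq_zero_left this.symm).symm

end Alb

namespace PD

variable {n : ℕ} {G : Type} [Group G] {C : Coc n G} {N m : ℕ} {A : Alb C N} {y : Cm N}
  (P : PD A y m)

lemma c_κ {j k : P.J} {t : Cm m} (ht : t ∈ P.O j k) : A.c (P.κ j k t) = 0 := by
  unfold κ
  rw [A.c_mul, A.c_mul, A.c_inv, ht.2.2.2.1, add_neg_cancel]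

lemma Con.c {P : PD A y m} {u v : G × P.J} (h : P.Con u v) : A.c v.1 = A.c u.1 := by
  unfold Con at h
  induction h with
  | refl => rfl
  | tail _ h2 ih =>
    obtain ⟨t, ht, -, -, h3⟩ := h2
    rw [h3, A.c_mul, P.c_κ ht, add_zero, ih]

variable (u₀ : G × P.J)

/-- the stabiliser of the component -/
def Hs : Subgroup G where
  carrier := {h | ∀ v : G × P.J, P.Con u₀ v ↔ P.Con u₀ (h * v.1, v.2)}
  one_mem' := fun v => by simp
  mul_mem' := by
    intro a b ha hb v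
    rw [hb v, ha (b * v.1, v.2), mul_assoc]
  inv_mem' := by
    intro a ha v
    rw [ha (a⁻¹ * v.1, v.2)]
    simp

variable {P u₀}

lemma mem_Hs {h : G} {v : G × P.J} (h1 : P.Con u₀ v) (h2 : P.Con u₀ (h * v.1, v.2)) :
    h ∈ P.Hs u₀ := by
  intro w
  constructor
  · intro hw
    exact h2.trans ((h1.symm.trans hw).translate h)
  · intro hw
    have h3 := (h2.symm.trans hw).translate h⁻¹
    simp only [inv_mul_cancel_left] at h3
    exact h1.trans h3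

lemma Hs_apply {h : G} (hh : h ∈ P.Hs u₀) {v : G × P.J} (h1 : P.Con u₀ v) :
    P.Con u₀ (h * v.1, v.2) := (hh v).1 h1

lemma c_Hs {h : G} (hh : h ∈ P.Hs u₀) : A.c h = 0 := by
  have h1 := (Hs_apply hh (v := u₀) Relation.ReflTransGen.refl).c
  simp only [A.c_mul] at h1
  simpa using h1

variable (P u₀)

/-- the plaques of the component -/
abbrev J1 : Type := {j : P.J // ∃ x, P.Con u₀ (x, j)}

/-- representative -/
def s (j : P.J1 u₀) : G := j.2.choose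

variable {P u₀}

lemma con_s (j : P.J1 u₀) : P.Con u₀ (P.s u₀ j, j.1) := j.2.choose_spec

lemma κ_mem_Hs {j k : P.J1 u₀} {t : Cm m} (ht : t ∈ P.O j.1 k.1) :
    P.s u₀ j * P.κ j.1 k.1 t * (P.s u₀ k)⁻¹ ∈ P.Hs u₀ := by
  refine mem_Hs (con_s k) ?_
  simp only [inv_mul_cancel_right]
  exact (con_s j).trans (con4 (P.s u₀ j) ht)

variable (P u₀)

open Classical in
/-- the cocycle of the component -/
def κ1 (j k : P.J1 u₀) (t : Cm m) : P.Hs u₀ :=
  if ht : t ∈ P.O j.1 k.1 then ⟨_, κ_mem_Hs (j := j) (k := k) ht⟩ else 1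

variable {P u₀}

lemma κ1_eq {j k : P.J1 u₀} {t : Cm m} (ht : t ∈ P.O j.1 k.1) :
    (P.κ1 u₀ j k t : G) = P.s u₀ j * P.κ j.1 k.1 t * (P.s u₀ k)⁻¹ := by
  unfold κ1
  rw [dif_pos ht]

/-- membership in the component -/
lemma con_hs {u : G × P.J} (h : P.Con u₀ u) : ∃ (x : P.Hs u₀) (j : P.J1 u₀), j.1 = u.2 ∧
    u.1 = x * P.s u₀ j := by
  refine ⟨⟨u.1 * (P.s u₀ ⟨u.2, ⟨u.1, h⟩⟩)⁻¹, ?_⟩, ⟨u.2, ⟨u.1, h⟩⟩, rfl, by simp⟩
  refine mem_Hs (con_s (⟨u.2, ⟨u.1, h⟩⟩ : P.J1 u₀)) ?_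
  simp only [inv_mul_cancel_right]
  exact h

lemma hs_con (x : P.Hs u₀) (j : P.J1 u₀) : P.Con u₀ (x * P.s u₀ j, j.1) :=
  Hs_apply x.2 (con_s j)

lemma exists_bd (j : P.J) : ∃ B : ℝ, 0 ≤ B ∧ ∀ t ∈ ball (P.d j) (3 * P.ρ j),
    ‖fderiv ℂ (P.ψ j) t‖ ≤ B := by
  have h1 : closedBall (P.d j) (3 * P.ρ j) ⊆ ball (P.d j) (5 * P.ρ j) :=
    closedBall_subset_ball (by have := P.ρ_pos j; linarith)
  have h2 := Vale.Agent.P268.continuousOn_fderiv_of_differentiableOn isOpen_ball (P.holo j)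
  obtain ⟨B, hB⟩ := (isCompact_closedBall (P.d j) (3 * P.ρ j)).exists_bound_of_continuousOn
    (h2.mono h1)
  exact ⟨max B 0, le_max_right _ _, fun t ht =>
    (hB t (ball_subset_closedBall ht)).trans (le_max_left _ _)⟩



attribute [instance] PD.fin

variable (P u₀)

/-- bound of the differential of the plaque -/
def Bd (j : P.J) : ℝ := (P.exists_bd j).choose

/-- common bound -/
def Mb : ℝ := 1 + ∑ j, ∑ k, ‖P.π k‖ * (C.M * P.Bd j)

lemma Bd_nonneg (j : P.J) : 0 ≤ P.Bd j := (P.exists_bd j).choose_spec.1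

lemma Mb_one : 1 ≤ P.Mb := by
  have hM := C.M_one
  have : 0 ≤ ∑ j, ∑ k, ‖P.π k‖ * (C.M * P.Bd j) :=
    Finset.sum_nonneg fun j _ => Finset.sum_nonneg fun k _ =>
      mul_nonneg (norm_nonneg _) (mul_nonneg (by linarith) (P.Bd_nonneg j))
  unfold Mb
  linarith

lemma le_Mb (j k : P.J) : ‖P.π k‖ * (C.M * P.Bd j) ≤ P.Mb := by
  have hM := C.M_one
  have h0 : ∀ j k, 0 ≤ ‖P.π k‖ * (C.M * P.Bd j) := fun j k =>
    mul_nonneg (norm_nonneg _) (mul_nonneg (by linarith) (P.Bd_nonneg j))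
  have h1 : ‖P.π k‖ * (C.M * P.Bd j) ≤ ∑ k, ‖P.π k‖ * (C.M * P.Bd j) :=
    Finset.single_le_sum (f := fun k => ‖P.π k‖ * (C.M * P.Bd j)) (fun k _ => h0 j k)
      (Finset.mem_univ k)
  have h2 : ∑ k, ‖P.π k‖ * (C.M * P.Bd j) ≤ ∑ j, ∑ k, ‖P.π k‖ * (C.M * P.Bd j) :=
    Finset.single_le_sum (f := fun j => ∑ k, ‖P.π k‖ * (C.M * P.Bd j))
      (fun j _ => Finset.sum_nonneg fun k _ => h0 j k) (Finset.mem_univ j)
  unfold Mb
  linarith

variable {P}

lemma T_le {j k : P.J} {t : Cm m} (ht : t ∈ P.O j k) (h1 : t ∈ ball (P.d j) (3 * P.ρ j)) :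
    ‖fderiv ℂ (P.T j k) t‖ ≤ P.Mb := by
  have d1 := (P.holo j).differentiableAt (isOpen_ball.mem_nhds (P.b45 j ht.1))
  have d2 := (C.T_holo _ _).differentiableAt ((C.O_open _ _).mem_nhds ht.2.1)
  have e1 : P.ψ j t ∈ ball (C.c (P.a j)) (3 * C.r (P.a j)) :=
    P.U_V j (P.ψ_U j t (P.b45 j ht.1))
  have e2 : C.T (P.a j) (P.a k) (P.ψ j t) ∈ ball (C.c (P.a k)) (3 * C.r (P.a k)) :=
    P.U_V k ht.2.2.1
  have h2 : fderiv ℂ (P.T j k) t = (P.π k).comp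
      ((fderiv ℂ (C.T (P.a j) (P.a k)) (P.ψ j t)).comp (fderiv ℂ (P.ψ j) t)) :=
    ((P.π k).hasFDerivAt.comp t (d2.hasFDerivAt.comp t d1.hasFDerivAt)).fderiv
  rw [h2]
  refine le_trans ?_ (P.le_Mb j k)
  refine (ContinuousLinearMap.opNorm_comp_le _ _).trans ?_
  refine mul_le_mul_of_nonneg_left ?_ (norm_nonneg _)
  refine (ContinuousLinearMap.opNorm_comp_le _ _).trans ?_
  have hM := C.M_one
  exact mul_le_mul (C.T_le _ _ _ ht.2.1 e1 e2) ((P.exists_bd j).choose_spec.2 t h1)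
    (norm_nonneg _) (by linarith)

lemma finN : {x : P.Hs u₀ | ∃ j k : P.J1 u₀, ∃ ν ∈ C.N, (x : G) =
    P.s u₀ j * (P.g j.1 * ν * (P.g k.1)⁻¹) * (P.s u₀ k)⁻¹}.Finite := by
  classical
  have hfin : Finite (P.J1 u₀) := inferInstance
  have h1 : (Set.range fun q : P.J1 u₀ × P.J1 u₀ × C.N =>
      P.s u₀ q.1 * (P.g q.1.1 * (q.2.2 : G) * (P.g q.2.1.1)⁻¹) * (P.s u₀ q.2.1)⁻¹).Finite :=
    Set.finite_range _
  refine (h1.preimage (f := fun x : P.Hs u₀ => (x : G)) Subtype.val_injective.injOn).subset ?_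
  rintro x ⟨j, k, ν, hν, hx⟩
  exact ⟨⟨j, k, ⟨ν, hν⟩⟩, hx.symm⟩

lemma closed' (j k : P.J) {K : Set (Cm m)} (hK : IsCompact K)
    (hKs : K ⊆ ball (P.d k) (4 * P.ρ k)) {t : Cm m} (ht : t ∈ ball (P.d j) (4 * P.ρ j))
    (hn : ¬ (t ∈ P.O j k ∧ P.T j k t ∈ K)) :
    ∀ᶠ t' in 𝓝 t, ¬ (t' ∈ P.O j k ∧ P.T j k t' ∈ K) := by
  have h5 := P.b45 j ht
  have hK5 : K ⊆ ball (P.d k) (5 * P.ρ k) := hKs.trans (P.b45 k)
  have hK1 : IsCompact (P.ψ k '' K) :=
    hK.image_of_continuousOn ((P.holo k).continuousOn.mono hK5)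
  have hK1s : P.ψ k '' K ⊆ ball (C.c (P.a k)) (4 * C.r (P.a k)) := by
    rintro _ ⟨w, hw, rfl⟩
    exact P.ψ_Ω (hK5 hw)
  by_cases hc : P.ψ j t ∈ C.O (P.a j) (P.a k) ∧
      C.T (P.a j) (P.a k) (P.ψ j t) ∈ P.ψ k '' K
  · exfalso
    obtain ⟨hO, w, hw, hwe⟩ := hc
    have e1 := A.compat _ _ _ hO
    have e2 := P.ψ_on k w (hK5 hw)
    have e3 := P.ψ_on j t h5
    have e4 : P.π k (C.T (P.a j) (P.a k) (P.ψ j t)) = w := by
      rw [← hwe]; exact P.π_ψ k w (hK5 hw)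
    refine hn ⟨⟨ht, hO, ?_, ?_, ?_⟩, ?_⟩
    · rw [← hwe]; exact P.ψ_U k w (hK5 hw)
    · rw [hwe] at e2
      have e5 : A.F (P.a k) (C.T (P.a j) (P.a k) (P.ψ j t)) +
          (A.c (P.g j) + A.c (C.κ (P.a j) (P.a k) (P.ψ j t))) =
          A.F (P.a k) (C.T (P.a j) (P.a k) (P.ψ j t)) + A.c (P.g k) := by
        refine Eq.trans ?_ (e3.trans e2.symm)
        rw [e1]; abel
      exact add_left_cancel e5
    · rw [e4]; exact hKs hw
    · show P.π k (C.T (P.a j) (P.a k) (P.ψ j t)) ∈ K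
      rw [e4]; exact hw
  · have h2 := C.closed (P.a j) (P.a k) _ hK1 hK1s (P.ψ j t) (P.ψ_Ω h5) hc
    have h3 := (ψ_contAt h5).eventually h2
    filter_upwards [h3] with t' ht' hcon
    refine ht' ⟨hcon.1.2.1, P.T j k t', hcon.2, ?_⟩
    exact ψT hcon.1

variable (P)

open Classical in
/-- **the component as a `Coc`** -/
def toCoc : Coc m (P.Hs u₀) where
  I := P.J1 u₀
  fin := Fintype.ofFinite _
  ne := ⟨⟨u₀.2, u₀.1, Relation.ReflTransGen.refl⟩⟩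
  c := fun j => P.d j.1
  r := fun j => P.ρ j.1
  r_pos := fun j => P.ρ_pos j.1
  O := fun j k => P.O j.1 k.1
  T := fun j k => P.T j.1 k.1
  g := fun _ _ _ => 1
  κ := P.κ1 u₀
  O_open := fun j k => O_open j.1 k.1
  O_sub := fun j k t ht => ht.1
  O_self := fun j => by
    ext t
    exact ⟨fun h => h.1, fun h => mem_self h⟩
  T_self := fun j t ht => T_self ht.1
  g_self := fun _ _ _ => rfl
  κ_self := fun j t ht => by
    ext
    rw [κ1_eq ht, κ_self ht.1, mul_one, mul_inv_cancel, Subgroup.coe_one]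
  T_mem := fun j k t ht => T_mem ht
  trans_mem := fun j k l t ht ht' => trans_mem ht ht'
  trans_T := fun j k l t ht ht' => trans_T ht ht'
  trans_g := fun _ _ _ _ _ _ => by norm_num
  trans_κ := fun j k l t ht ht' => by
    ext
    rw [Subgroup.coe_mul, κ1_eq ht, κ1_eq ht', κ1_eq (trans_mem ht ht'), trans_κ ht ht']
    group
  T_holo := fun j k => T_holo j.1 k.1
  g_holo := fun _ _ => differentiableOn_const _
  g_ne := fun _ _ _ _ => one_ne_zero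
  κ_loc := fun j k t ht => by
    filter_upwards [κ_loc ht, (O_open j.1 k.1).mem_nhds ht] with t' h1 h2
    ext
    rw [κ1_eq ht, κ1_eq h2, h1.1]
  cover := fun j t ht => by
    obtain ⟨b, h1, h2, h3⟩ := con_ball (P.s u₀ j) j.1 t ht
    exact ⟨⟨b, _, (con_s j).trans h3⟩, h1, h2⟩
  closed := fun j k K hK hKs t ht hn => closed' j.1 k.1 hK hKs ht hn
  N := (finN (P := P) (u₀ := u₀)).toFinset
  κ_mem := fun j k t ht h1 h2 => by
    rw [Set.Finite.mem_toFinset]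
    refine ⟨j, k, C.κ (P.a j.1) (P.a k.1) (P.ψ j.1 t), ?_, ?_⟩
    · exact C.κ_mem _ _ _ ht.2.1 (P.U_V _ (P.ψ_U _ t (P.b45 _ ht.1))) (P.U_V _ ht.2.2.1)
    · rw [κ1_eq ht]; rfl
  M := P.Mb
  M_one := P.Mb_one
  g_le := fun _ _ _ _ _ _ => by
    rw [norm_one]; exact P.Mb_one
  T_le := fun j k t ht h1 _ => T_le ht h1
  conn := by
    intro Q hQ γ a γ' b h
    have key : ∀ v : G × P.J, P.Con (γ * P.s u₀ a, a.1) v →
        ∃ (x : P.Hs u₀) (j : P.J1 u₀), j.1 = v.2 ∧ v.1 = x * P.s u₀ j ∧ Q x j := by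
      intro v hv
      unfold Con at hv
      induction hv with
      | refl => exact ⟨γ, a, rfl, rfl, h⟩
      | @tail v w h1 h2 ih =>
        obtain ⟨x, j, hj, hx, hq⟩ := ih
        obtain ⟨v1, v2⟩ := v
        simp only at hj hx
        subst hj
        obtain ⟨t, ht, g1, g2, g3⟩ := h2
        have hw : P.Con u₀ w :=
          (hs_con γ a).trans (Relation.ReflTransGen.tail h1 ⟨t, ht, g1, g2, g3⟩)
        obtain ⟨w1, w2⟩ := w
        refine ⟨x * P.κ1 u₀ j ⟨w2, w1, hw⟩ t, ⟨w2, w1, hw⟩, rfl, ?_,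
          hQ x j ⟨w2, w1, hw⟩ t ht g1 g2 hq⟩
        have h3 : (P.κ1 u₀ j ⟨w2, w1, hw⟩ t : G) = _ := κ1_eq (k := ⟨w2, w1, hw⟩) ht
        rw [Subgroup.coe_mul, h3, g3, hx]
        group
    obtain ⟨x, j, hj, hx, hq⟩ := key (γ' * P.s u₀ b, b.1) ((hs_con γ a).symm.trans (hs_con γ' b))
    have hj' : j = b := Subtype.ext hj
    subst hj'
    have : γ' = x := by
      ext
      exact mul_right_cancel hx
    rw [this]; exact hq


variable {u₀}

lemma imm' (j : P.J) {t : Cm m} (ht : t ∈ ball (P.d j) (5 * P.ρ j)) :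
    Function.Injective (fderiv ℂ (P.ψ j) t) := by
  have d1 := (P.holo j).differentiableAt (isOpen_ball.mem_nhds ht)
  have h1 : (fun t => P.π j (P.ψ j t)) =ᶠ[𝓝 t] fun t => t := by
    filter_upwards [isOpen_ball.mem_nhds ht] with t' ht' using P.π_ψ j t' ht'
  have h2 : HasFDerivAt (fun t => P.π j (P.ψ j t)) ((P.π j).comp (fderiv ℂ (P.ψ j) t)) t :=
    (P.π j).hasFDerivAt.comp t d1.hasFDerivAt
  have h3 : (P.π j).comp (fderiv ℂ (P.ψ j) t) = ContinuousLinearMap.id ℂ (Cm m) := by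
    rw [← h2.fderiv, h1.fderiv_eq]
    exact fderiv_fun_id
  intro v w hvw
  have h4 : (P.π j) (fderiv ℂ (P.ψ j) t v) = v := by
    have := congrArg (fun L : Cm m →L[ℂ] Cm m => L v) h3
    simpa using this
  have h5 : (P.π j) (fderiv ℂ (P.ψ j) t w) = w := by
    have := congrArg (fun L : Cm m →L[ℂ] Cm m => L w) h3
    simpa using this
  rw [← h4, ← h5, hvw]

/-- two plaques with a common point overlap there -/
lemma over' {j k : P.J} {t t' : Cm m} (ht : t ∈ ball (P.d j) (4 * P.ρ j))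
    (ht' : t' ∈ ball (P.d k) (4 * P.ρ k)) (hO : P.ψ j t ∈ C.O (P.a j) (P.a k))
    (hT : C.T (P.a j) (P.a k) (P.ψ j t) = P.ψ k t') : t ∈ P.O j k ∧ P.T j k t = t' := by
  have e1 := A.compat _ _ _ hO
  have e2 := P.ψ_on k t' (P.b45 k ht')
  have e3 := P.ψ_on j t (P.b45 j ht)
  have e4 : P.T j k t = t' := by
    unfold T; rw [hT]; exact P.π_ψ k t' (P.b45 k ht')
  refine ⟨⟨ht, hO, ?_, ?_, ?_⟩, e4⟩
  · rw [hT]; exact P.ψ_U k t' (P.b45 k ht')
  · rw [← hT] at e2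
    have e5 : A.F (P.a k) (C.T (P.a j) (P.a k) (P.ψ j t)) +
        (A.c (P.g j) + A.c (C.κ (P.a j) (P.a k) (P.ψ j t))) =
        A.F (P.a k) (C.T (P.a j) (P.a k) (P.ψ j t)) + A.c (P.g k) := by
      refine Eq.trans ?_ (e3.trans e2.symm)
      rw [e1]; abel
    exact add_left_cancel e5
  · show P.T j k t ∈ _
    rw [e4]; exact ht'

variable (u₀)

/-- **the component of the fibre** -/
def toFib (hc : A.c u₀.1 = 0) : FibCoc A y m where
  H := P.Hs u₀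
  D := P.toCoc u₀
  ix := fun j : P.J1 u₀ => P.a j.1
  s := fun j : P.J1 u₀ => P.s u₀ j * P.g j.1
  ψ := fun j : P.J1 u₀ => P.ψ j.1
  holo := fun j : P.J1 u₀ => P.holo j.1
  imm := fun (j : P.J1 u₀) t ht => P.imm' j.1 ht
  maps := fun (j : P.J1 u₀) t ht => P.U_V j.1 (P.ψ_U j.1 t ht)
  on := fun (j : P.J1 u₀) t ht => by
    have h1 : A.c (P.s u₀ j) = 0 := by
      have := (con_s j).c
      simp only at this
      rw [this, hc]
    rw [A.c_mul, h1, zero_add]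
    exact P.ψ_on j.1 t ht
  ker := fun h => c_Hs h.2
  dict := fun (j k : P.J1 u₀) t ht => by
    have ht' : t ∈ P.O j.1 k.1 := ht
    refine ⟨ht'.2.1, (ψT ht').symm, ?_⟩
    show P.s u₀ j * P.g j.1 * _ = (P.κ1 u₀ j k t : G) * (P.s u₀ k * P.g k.1)
    rw [κ1_eq ht']
    unfold κ
    group
  plaque := fun (j : P.J1 u₀) t ht => by
    have ht4 : t ∈ ball (P.d j.1) (4 * P.ρ j.1) := ht
    have h5 := P.b45 j.1 ht4
    have h1 : A.c (P.s u₀ j) = 0 := by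
      have := (con_s j).c
      simp only at this
      rw [this, hc]
    have h2 : ∀ᶠ z in 𝓝 (P.ψ j.1 t), z ∈ P.U j.1 :=
      (P.U_open j.1).mem_nhds (P.ψ_U j.1 t h5)
    have h3 : ∀ᶠ z in 𝓝 (P.ψ j.1 t), P.π j.1 z ∈ ball (P.d j.1) (4 * P.ρ j.1) := by
      refine (P.π j.1).continuous.continuousAt.eventually (isOpen_ball.mem_nhds ?_)
      rw [P.π_ψ j.1 t h5]; exact ht4
    filter_upwards [h2, h3] with z hz1 hz2 hz3
    rw [A.c_mul, h1, zero_add] at hz3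
    exact ⟨P.π j.1 z, hz2, P.ψ_π j.1 z hz1 hz3⟩
  meet := fun h (j k : P.J1 u₀) t t' ht ht' hO hT hs => by
    obtain ⟨h1, h2⟩ := P.over' (j := j.1) (k := k.1) ht ht' hO hT
    have h3 : (P.κ1 u₀ j k t : G) = h := by
      rw [κ1_eq h1]
      unfold κ
      have : P.s u₀ j * P.g j.1 * C.κ (P.a j.1) (P.a k.1) (P.ψ j.1 t) =
          h * (P.s u₀ k * P.g k.1) := hs
      calc P.s u₀ j * (P.g j.1 * C.κ (P.a j.1) (P.a k.1) (P.ψ j.1 t) * (P.g k.1)⁻¹) *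
            (P.s u₀ k)⁻¹ = P.s u₀ j * P.g j.1 * C.κ (P.a j.1) (P.a k.1) (P.ψ j.1 t) *
            (P.s u₀ k * P.g k.1)⁻¹ := by group
        _ = h := by rw [this]; group
    exact ⟨h3 ▸ (P.κ1 u₀ j k t).2, h1, h2, h3⟩

variable {P u₀}

/-- membership in the component, read on one plaque -/
lemma mem_iff (hc : A.c u₀.1 = 0) {g : G} {b : C.I} {z : Cm n} (j : P.J) {x : G} {t : Cm m}
    (hz : z ∈ C.O b (P.a j)) (ht : t ∈ ball (P.d j) (4 * P.ρ j))
    (hT : C.T b (P.a j) z = P.ψ j t) (hx : g * C.κ b (P.a j) z = x * P.g j) :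
    (P.toFib u₀ hc).Mem g b z ↔ P.Con u₀ (x, j) := by
  have hzb : z ∈ C.Ω b := C.O_sub _ _ hz
  have hψO : P.ψ j t ∈ C.O (P.a j) b := by rw [← hT]; exact C.T_mem _ _ _ hz
  have hTT : C.T (P.a j) b (P.ψ j t) = z := by rw [← hT]; exact T_T_self C hz
  have hκ : C.κ b (P.a j) z * C.κ (P.a j) b (P.ψ j t) = 1 := by
    rw [← hT]; exact κ_κ_self C hz
  constructor
  · rintro ⟨h, k, t', ht', hO', hT', hg⟩
    change P.J1 u₀ at k
    have ht4 : t' ∈ ball (P.d k.1) (4 * P.ρ k.1) := ht'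
    have hO2 : P.ψ k.1 t' ∈ C.O (P.a k.1) b := hO'
    have hT2 : C.T (P.a k.1) b (P.ψ k.1 t') = z := hT'
    have hg2 : g = h * (P.s u₀ k * P.g k.1) * C.κ (P.a k.1) b (P.ψ k.1 t') := hg
    have hz2 : C.T (P.a k.1) b (P.ψ k.1 t') ∈ C.O b (P.a j) := by rw [hT2]; exact hz
    have e1 := C.trans_mem _ _ _ _ hO2 hz2
    have e2 := C.trans_T _ _ _ _ hO2 hz2
    have e3 := C.trans_κ _ _ _ _ hO2 hz2
    rw [hT2] at e2 e3
    obtain ⟨f1, f2⟩ := P.over' (j := k.1) (k := j) ht4 ht e1 (e2.trans hT)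
    have f3 := (hs_con h k).trans (con4 (h * P.s u₀ k) f1)
    have f4 : (h : G) * P.s u₀ k * P.κ k.1 j t' = x := by
      unfold κ
      rw [e3]
      calc (h : G) * P.s u₀ k * (P.g k.1 * (C.κ (P.a k.1) b (P.ψ k.1 t') * C.κ b (P.a j) z) *
            (P.g j)⁻¹) = (h * (P.s u₀ k * P.g k.1) * C.κ (P.a k.1) b (P.ψ k.1 t')) *
            C.κ b (P.a j) z * (P.g j)⁻¹ := by group
        _ = x := by rw [← hg2, hx]; group
    rw [f4] at f3
    exact f3
  · intro hcon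
    obtain ⟨h, k, hk, hh⟩ := con_hs hcon
    simp only at hk hh
    subst hk
    refine ⟨h, k, t, ht, hψO, hTT, ?_⟩
    show g = h * (P.s u₀ k * P.g k.1) * C.κ (P.a k.1) b (P.ψ k.1 t)
    have : g = x * P.g k.1 * (C.κ b (P.a k.1) z)⁻¹ := by rw [← hx]; group
    rw [this, hh, ← eq_inv_of_mul_eq_one_right hκ]
    group

/-- every point of the fibre lies in a small plaque -/
lemma exists_plaque {g : G} {b : C.I} {z : Cm n} (h : A.On y g b z) :
    ∃ (j : P.J) (x : G) (t : Cm m), z ∈ C.O b (P.a j) ∧ t ∈ ball (P.d j) (P.ρ j) ∧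
      C.T b (P.a j) z = P.ψ j t ∧ C.T b (P.a j) z ∈ P.U j ∧
      g * C.κ b (P.a j) z = x * P.g j ∧ A.c x = 0 := by
  obtain ⟨b', h1, h2⟩ := C.cover b z h.1
  have hF : A.F b' (C.T b b' z) + A.c (g * C.κ b b' z) = y := by
    refine Eq.trans ?_ h.2
    rw [A.c_mul, A.compat _ _ _ h1]
    abel
  obtain ⟨j, rfl, hj2, hj3, hj4⟩ := P.cover _ b' _ h2 hF
  refine ⟨j, g * C.κ b (P.a j) z * (P.g j)⁻¹, P.π j (C.T b (P.a j) z), h1, hj4, ?_, hj3,
    by group, ?_⟩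
  · refine (P.ψ_π j _ hj3 ?_).symm
    rw [hj2]; exact hF
  · rw [A.c_mul, ← hj2, ← A.c_mul, mul_inv_cancel, A.c_one]

/-- membership is locally constant on the fibre -/
lemma mem_loc (hc : A.c u₀.1 = 0) {g : G} {b : C.I} {z : Cm n} (h : A.On y g b z) :
    ∀ᶠ z' in 𝓝 z, A.On y g b z' →
      ((P.toFib u₀ hc).Mem g b z' ↔ (P.toFib u₀ hc).Mem g b z) := by
  obtain ⟨j, x, t, h1, h2, h3, h4, h5, h6⟩ := P.exists_plaque h
  have h24 : t ∈ ball (P.d j) (4 * P.ρ j) :=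
    ball_subset_ball (by have := P.ρ_pos j; linarith) h2
  have h25 := P.b45 j h24
  have e0 := mem_iff (P := P) hc (g := g) j h1 h24 h3 h5
  have hTc := CT_contAt h1
  have hπ : P.π j (C.T b (P.a j) z) = t := by rw [h3]; exact P.π_ψ j t h25
  filter_upwards [(C.O_open _ _).mem_nhds h1, hTc.eventually ((P.U_open j).mem_nhds h4),
    C.κ_loc _ _ _ h1, (((P.π j).continuous.continuousAt.comp hTc).eventually
      (isOpen_ball.mem_nhds (show P.π j (C.T b (P.a j) z) ∈ ball (P.d j) (4 * P.ρ j) by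
        rw [hπ]; exact h24)))] with z' g1 g2 g3 g4 hon
  rw [e0]
  refine mem_iff (P := P) hc (g := g) j g1 g4 ?_ (by rw [g3]; exact h5)
  refine (P.ψ_π j _ g2 ?_).symm
  have e1 := A.compat _ _ _ g1
  have e2 : A.c (P.g j) = A.c g + A.c (C.κ b (P.a j) z') := by
    have := congrArg A.c h5
    rw [A.c_mul, A.c_mul, h6, zero_add] at this
    rw [g3, this]
  refine Eq.trans ?_ hon.2
  rw [e2, e1]
  abel

end PD

/-- **S5a**. -/
theorem s5aStmt : S5aStmt := by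
  intro n N m hn G _ C A y hreg g₀ a₀ z₀ hon
  obtain ⟨P⟩ := exists_PD hn A y hreg
  obtain ⟨j, x, t, h1, h2, h3, h4, h5, h6⟩ := P.exists_plaque hon
  have h24 : t ∈ ball (P.d j) (4 * P.ρ j) :=
    ball_subset_ball (by have := P.ρ_pos j; linarith) h2
  have hc : A.c ((x, j) : G × P.J).1 = 0 := h6
  refine ⟨P.toFib (x, j) hc, ?_, ?_, ?_⟩
  · rw [PD.mem_iff (P := P) hc (g := g₀) j h1 h24 h3 h5]
    exact Relation.ReflTransGen.refl
  · intro g b z h hm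
    filter_upwards [PD.mem_loc (P := P) hc h] with z' hz' hon'
    exact (hz' hon').2 hm
  · intro g b z h hm
    filter_upwards [PD.mem_loc (P := P) hc h] with z' hz' hon' hcon
    exact hm ((hz' hon').1 hcon)

end Vale.Agent.P284.H287.F
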