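import Vale.Agent.P284.H287.FibDefs
import Vale.Agent.P268.Hol

/-!
# P284, row S5a (helper287): flow boxes and finitely many plaques
-/

open scoped Manifold ContDiff Topology ComplexConjugate ComplexOrder
open Filter Set Metric

noncomputable section

namespace Vale.Agent.P284.H287.F

open Vale.Agent.P272.K Vale.Agent.P284.H894

/-- a complement of the kernel -/
lemma exists_proj {n N m : ℕ} (hn : n = N + m) (L : Cm n →L[ℂ] Cm N)
    (hL : Function.Surjective L) : ∃ π : Cm n →L[ℂ] Cm m, ∃ e : Cm n ≃L[ℂ] Cm N × Cm m,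
      (e : Cm n →L[ℂ] Cm N × Cm m) = L.prod π := by
  set K0 : Submodule ℂ (Cm n) := LinearMap.ker (L : Cm n →ₗ[ℂ] Cm N) with hK0
  have hdim : Module.finrank ℂ K0 = m := by
    have h1 := LinearMap.finrank_range_add_finrank_ker (L : Cm n →ₗ[ℂ] Cm N)
    have h2 : LinearMap.range (L : Cm n →ₗ[ℂ] Cm N) = ⊤ := LinearMap.range_eq_top.2 hL
    rw [h2, finrank_top] at h1
    have h3 : Module.finrank ℂ (Cm n) = n := by simp [Cm]
    have h4 : Module.finrank ℂ (Cm N) = N := by simp [Cm]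
    rw [h3, h4] at h1
    show Module.finrank ℂ (LinearMap.ker (L : Cm n →ₗ[ℂ] Cm N)) = m
    omega
  obtain ⟨p, hp⟩ := LinearMap.exists_leftInverse_of_injective K0.subtype
    (LinearMap.ker_eq_bot.2 (Submodule.injective_subtype K0))
  let e0 : K0 ≃ₗ[ℂ] Cm m := LinearEquiv.ofFinrankEq K0 (Cm m) (by
    rw [hdim]; simp [Cm])
  let π0 : Cm n →ₗ[ℂ] Cm m := (e0 : K0 →ₗ[ℂ] Cm m) ∘ₗ p
  let π : Cm n →L[ℂ] Cm m := LinearMap.toContinuousLinearMap π0
  have hinj : Function.Injective (L.prod π) := by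
    rw [injective_iff_map_eq_zero]
    intro v hv
    have h1 : L v = 0 := congrArg Prod.fst hv
    have h2 : π v = 0 := congrArg Prod.snd hv
    have hvK : v ∈ K0 := h1
    have h3 : p v = ⟨v, hvK⟩ := by
      have := LinearMap.congr_fun hp ⟨v, hvK⟩
      simpa using this
    have h4 : e0 (p v) = 0 := h2
    rw [h3] at h4
    have h5 : (⟨v, hvK⟩ : K0) = 0 := by simpa using h4
    exact congrArg Subtype.val h5
  have hfr : Module.finrank ℂ (Cm n) = Module.finrank ℂ (Cm N × Cm m) := by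
    simp [Cm, hn]
  let f : Cm n →ₗ[ℂ] Cm N × Cm m := (L.prod π : Cm n →L[ℂ] Cm N × Cm m)
  have hfinj : Function.Injective f := hinj
  have hbij : Function.Bijective f :=
    ⟨hfinj, (LinearMap.injective_iff_surjective_of_finrank_eq_finrank hfr).1 hfinj⟩
  refine ⟨π, (LinearEquiv.ofBijective f hbij).toContinuousLinearEquiv, ?_⟩
  ext v <;> rfl

/-- **flow box** at `z₀` -/
lemma exists_box {n N m : ℕ} (hn : n = N + m) {F : Cm n → Cm N} {V : Set (Cm n)} (hV : IsOpen V)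
    (hF : DifferentiableOn ℂ F V) {z₀ : Cm n} (hz₀ : z₀ ∈ V)
    (hs : Function.Surjective (fderiv ℂ F z₀)) :
    ∃ (π : Cm n →L[ℂ] Cm m) (U : Set (Cm n)) (ρ : ℝ) (ψ : Cm m → Cm n), 0 < ρ ∧ IsOpen U ∧
      z₀ ∈ U ∧ U ⊆ V ∧ DifferentiableOn ℂ ψ (ball (π z₀) (5 * ρ)) ∧
      (∀ t ∈ ball (π z₀) (5 * ρ), ψ t ∈ U ∧ F (ψ t) = F z₀ ∧ π (ψ t) = t) ∧
      ∀ z ∈ U, F z = F z₀ → π z ∈ ball (π z₀) (5 * ρ) ∧ ψ (π z) = z := by
  obtain ⟨π, e, he⟩ := exists_proj hn _ hs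
  have han := Vale.Agent.P268.analyticAt_of_differentiableOn hV hF hz₀
  have hFd : HasFDerivAt F (fderiv ℂ F z₀) z₀ :=
    (hF.differentiableAt (hV.mem_nhds hz₀)).hasFDerivAt
  set Φ : Cm n → Cm N × Cm m := fun z => (F z, π z) with hΦ
  have hΦd : HasFDerivAt Φ (e : Cm n →L[ℂ] Cm N × Cm m) z₀ := by
    rw [he]; exact hFd.prodMk π.hasFDerivAt
  have hΦc : ContDiffAt ℂ 1 Φ z₀ := (han.contDiffAt).prodMk π.contDiff.contDiffAt
  set q := hΦc.toOpenPartialHomeomorph Φ hΦd one_ne_zero with hq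
  have hq1 : ∀ z, q z = Φ z := fun z => rfl
  have hsrc : z₀ ∈ q.source := hΦc.mem_toOpenPartialHomeomorph_source hΦd one_ne_zero
  have hinv : ContDiffAt ℂ 1 q.symm (Φ z₀) := hΦc.to_localInverse hΦd one_ne_zero
  have hev : ∀ᶠ w in 𝓝 (Φ z₀), w ∈ q.target ∧ DifferentiableAt ℂ q.symm w ∧ q.symm w ∈ V := by
    have h1 : ∀ᶠ w in 𝓝 (Φ z₀), w ∈ q.target := q.open_target.mem_nhds (q.map_source hsrc)
    have h2 : ∀ᶠ w in 𝓝 (Φ z₀), ContDiffAt ℂ 1 q.symm w := hinv.eventually (by simp)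
    have h3 : q.symm (Φ z₀) = z₀ := q.left_inv hsrc
    have h4 : ∀ᶠ w in 𝓝 (Φ z₀), q.symm w ∈ V := by
      apply hinv.continuousAt
      rw [h3]
      exact hV.mem_nhds hz₀
    filter_upwards [h1, h2, h4] with w hw1 hw2 hw4
    exact ⟨hw1, hw2.differentiableAt one_ne_zero, hw4⟩
  obtain ⟨ε, hε, hball⟩ := Metric.eventually_nhds_iff_ball.1 hev
  have hmem : ∀ y ∈ ball (F z₀) ε, ∀ t ∈ ball (π z₀) ε, (y, t) ∈ ball (Φ z₀) ε := by
    intro y hy t ht
    rw [mem_ball] at hy ht ⊢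
    rw [Prod.dist_eq]
    exact max_lt hy ht
  refine ⟨π, q.source ∩ q ⁻¹' (ball (Φ z₀) ε), ε / 5, fun t => q.symm (F z₀, t), by positivity,
    q.continuousOn.isOpen_inter_preimage q.open_source isOpen_ball, ⟨hsrc, mem_ball_self hε⟩,
    ?_, ?_, ?_, ?_⟩
  · rintro z ⟨hz1, hz2⟩
    have := (hball _ hz2).2.2
    rwa [q.left_inv hz1] at this
  · intro t ht
    rw [mul_div_cancel₀ _ (by norm_num : (5 : ℝ) ≠ 0)] at ht
    have h1 := (hball _ (hmem (F z₀) (mem_ball_self hε) t ht)).2.1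
    have h2 : DifferentiableAt ℂ (fun t : Cm m => (F z₀, t)) t := by fun_prop
    exact (h1.comp t h2).differentiableWithinAt
  · intro t ht
    rw [mul_div_cancel₀ _ (by norm_num : (5 : ℝ) ≠ 0)] at ht
    have h0 := hmem (F z₀) (mem_ball_self hε) t ht
    have h1 := (hball _ h0).1
    have h2 : q (q.symm (F z₀, t)) = (F z₀, t) := q.right_inv h1
    refine ⟨⟨q.map_target h1, ?_⟩, ?_, ?_⟩
    · show q (q.symm (F z₀, t)) ∈ ball (Φ z₀) ε
      rw [h2]; exact h0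
    · exact congrArg Prod.fst h2
    · exact congrArg Prod.snd h2
  · rintro z ⟨hz1, hz2⟩ hFz
    have h1 : (F z, π z) ∈ ball (Φ z₀) ε := hz2
    rw [mul_div_cancel₀ _ (by norm_num : (5 : ℝ) ≠ 0)]
    constructor
    · rw [mem_ball, Prod.dist_eq] at h1
      rw [mem_ball]
      exact (le_max_right _ _).trans_lt h1
    · show q.symm (F z₀, π z) = z
      rw [← hFz]
      exact q.left_inv hz1

end Vale.Agent.P284.H287.F
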