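import Vale.Agent.P284.H287.FibPD

/-!
# P284, row S5a (helper287): overlaps of the plaques, chains of plaques
-/

open scoped Manifold ContDiff Topology ComplexConjugate ComplexOrder
open Filter Set Metric

noncomputable section

namespace Vale.Agent.P284.H287.F

open Vale.Agent.P272.K Vale.Agent.P284.H894

section coc
variable {n : ℕ} {G : Type} [Group G] (C : Coc n G)

lemma mem_Oself {a : C.I} {z : Cm n} (hz : z ∈ C.Ω a) : z ∈ C.O a a := by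
  rw [C.O_self]; exact hz

lemma T_T_self {a b : C.I} {z : Cm n} (hz : z ∈ C.O a b) : C.T b a (C.T a b z) = z := by
  rw [← C.trans_T a b a z hz (C.T_mem a b z hz)]
  exact C.T_self a z (mem_Oself C (C.O_sub a b hz))

lemma κ_κ_self {a b : C.I} {z : Cm n} (hz : z ∈ C.O a b) :
    C.κ a b z * C.κ b a (C.T a b z) = 1 := by
  rw [← C.trans_κ a b a z hz (C.T_mem a b z hz)]
  exact C.κ_self a z (mem_Oself C (C.O_sub a b hz))

end coc

namespace PD

variable {n : ℕ} {G : Type} [Group G] {C : Coc n G} {N m : ℕ} {A : Alb C N} {y : Cm N}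
  (P : PD A y m)

/-- overlap of two plaques -/
def O (j k : P.J) : Set (Cm m) :=
  {t | t ∈ ball (P.d j) (4 * P.ρ j) ∧ P.ψ j t ∈ C.O (P.a j) (P.a k) ∧
    C.T (P.a j) (P.a k) (P.ψ j t) ∈ P.U k ∧
    A.c (P.g j) + A.c (C.κ (P.a j) (P.a k) (P.ψ j t)) = A.c (P.g k) ∧
    P.π k (C.T (P.a j) (P.a k) (P.ψ j t)) ∈ ball (P.d k) (4 * P.ρ k)}

/-- change of coordinates -/
def T (j k : P.J) (t : Cm m) : Cm m := P.π k (C.T (P.a j) (P.a k) (P.ψ j t))

/-- the cocycle -/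
def κ (j k : P.J) (t : Cm m) : G := P.g j * C.κ (P.a j) (P.a k) (P.ψ j t) * (P.g k)⁻¹

lemma b45 (j : P.J) : ball (P.d j) (4 * P.ρ j) ⊆ ball (P.d j) (5 * P.ρ j) :=
  ball_subset_ball (by have := P.ρ_pos j; linarith)

lemma b34 (j : P.J) : ball (P.d j) (3 * P.ρ j) ⊆ ball (P.d j) (4 * P.ρ j) :=
  ball_subset_ball (by have := P.ρ_pos j; linarith)

lemma b13 (j : P.J) : ball (P.d j) (P.ρ j) ⊆ ball (P.d j) (3 * P.ρ j) :=
  ball_subset_ball (by have := P.ρ_pos j; linarith)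

lemma ψ_Ω {j : P.J} {t : Cm m} (ht : t ∈ ball (P.d j) (5 * P.ρ j)) : P.ψ j t ∈ C.Ω (P.a j) :=
  VO C _ (P.U_V j (P.ψ_U j t ht))

variable {P}

lemma ψT {j k : P.J} {t : Cm m} (ht : t ∈ P.O j k) :
    P.ψ k (P.T j k t) = C.T (P.a j) (P.a k) (P.ψ j t) := by
  obtain ⟨h1, h2, h3, h4, h5⟩ := ht
  refine P.ψ_π k _ h3 ?_
  have h6 := A.compat _ _ _ h2
  have h7 := P.ψ_on j t (P.b45 j h1)
  refine Eq.trans ?_ h7
  rw [← h4, h6]
  abel

lemma ψ_contAt {j : P.J} {t : Cm m} (ht : t ∈ ball (P.d j) (5 * P.ρ j)) :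
    ContinuousAt (P.ψ j) t :=
  ((P.holo j).differentiableAt (isOpen_ball.mem_nhds ht)).continuousAt

lemma CT_contAt {a b : C.I} {z : Cm n} (hz : z ∈ C.O a b) : ContinuousAt (C.T a b) z :=
  ((C.T_holo a b).differentiableAt ((C.O_open a b).mem_nhds hz)).continuousAt

lemma T_contAt {j k : P.J} {t : Cm m} (ht : t ∈ P.O j k) : ContinuousAt (P.T j k) t :=
  (P.π k).continuous.continuousAt.comp ((CT_contAt ht.2.1).comp (ψ_contAt (P.b45 j ht.1)))

lemma κ_loc {j k : P.J} {t : Cm m} (ht : t ∈ P.O j k) :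
    ∀ᶠ t' in 𝓝 t, P.κ j k t' = P.κ j k t ∧
      C.κ (P.a j) (P.a k) (P.ψ j t') = C.κ (P.a j) (P.a k) (P.ψ j t) := by
  have h := (ψ_contAt (P.b45 j ht.1)).eventually (C.κ_loc _ _ _ ht.2.1)
  filter_upwards [h] with t' ht'
  exact ⟨by unfold κ; rw [ht'], ht'⟩

lemma O_open (j k : P.J) : IsOpen (P.O j k) := by
  rw [isOpen_iff_mem_nhds]
  intro t ht
  have h5 := P.b45 j ht.1
  have e1 : ∀ᶠ t' in 𝓝 t, t' ∈ ball (P.d j) (4 * P.ρ j) := isOpen_ball.mem_nhds ht.1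
  have e2 : ∀ᶠ t' in 𝓝 t, P.ψ j t' ∈ C.O (P.a j) (P.a k) :=
    (ψ_contAt h5).eventually ((C.O_open _ _).mem_nhds ht.2.1)
  have e3 : ∀ᶠ t' in 𝓝 t, C.T (P.a j) (P.a k) (P.ψ j t') ∈ P.U k :=
    ((CT_contAt ht.2.1).comp (ψ_contAt h5)).eventually ((P.U_open k).mem_nhds ht.2.2.1)
  have e4 := κ_loc ht
  have e5 : ∀ᶠ t' in 𝓝 t, P.T j k t' ∈ ball (P.d k) (4 * P.ρ k) :=
    (T_contAt ht).eventually (isOpen_ball.mem_nhds ht.2.2.2.2)
  filter_upwards [e1, e2, e3, e4, e5] with t' h1 h2 h3 h4 h5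
  refine ⟨h1, h2, h3, ?_, h5⟩
  rw [h4.2]; exact ht.2.2.2.1

lemma T_holo (j k : P.J) : DifferentiableOn ℂ (P.T j k) (P.O j k) := by
  intro t ht
  refine DifferentiableAt.differentiableWithinAt ?_
  have h1 := (P.holo j).differentiableAt (isOpen_ball.mem_nhds (P.b45 j ht.1))
  have h2 := (C.T_holo _ _).differentiableAt ((C.O_open _ _).mem_nhds ht.2.1)
  exact (P.π k).differentiableAt.comp t (h2.comp t h1)

lemma mem_self {j : P.J} {t : Cm m} (ht : t ∈ ball (P.d j) (4 * P.ρ j)) : t ∈ P.O j j := by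
  have h5 := P.b45 j ht
  have h1 := mem_Oself C (P.ψ_Ω h5)
  have h2 := C.T_self _ _ h1
  refine ⟨ht, h1, ?_, ?_, ?_⟩
  · rw [h2]; exact P.ψ_U j t h5
  · have h3 : A.c 1 = 0 := by
      have := A.c_mul 1 1
      rw [mul_one] at this
      simpa using this
    rw [C.κ_self _ _ h1, h3, add_zero]
  · rw [h2, P.π_ψ j t h5]; exact ht

lemma T_self {j : P.J} {t : Cm m} (ht : t ∈ ball (P.d j) (4 * P.ρ j)) : P.T j j t = t := by
  have h5 := P.b45 j ht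
  unfold T
  rw [C.T_self _ _ (mem_Oself C (P.ψ_Ω h5)), P.π_ψ j t h5]

lemma κ_self {j : P.J} {t : Cm m} (ht : t ∈ ball (P.d j) (4 * P.ρ j)) : P.κ j j t = 1 := by
  unfold κ
  rw [C.κ_self _ _ (mem_Oself C (P.ψ_Ω (P.b45 j ht)))]
  group

lemma T_mem {j k : P.J} {t : Cm m} (ht : t ∈ P.O j k) : P.T j k t ∈ P.O k j := by
  have h := ψT ht
  obtain ⟨h1, h2, h3, h4, h5⟩ := ht
  refine ⟨h5, ?_, ?_, ?_, ?_⟩
  · rw [h]; exact C.T_mem _ _ _ h2
  · rw [h, T_T_self C h2]; exact P.ψ_U j t (P.b45 j h1)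
  · rw [h, ← h4, add_assoc, ← A.c_mul, κ_κ_self C h2]
    have h3 : A.c 1 = 0 := by
      have := A.c_mul 1 1
      rw [mul_one] at this
      simpa using this
    rw [h3, add_zero]
  · rw [h, T_T_self C h2, P.π_ψ j t (P.b45 j h1)]; exact h1

lemma trans_mem {j k l : P.J} {t : Cm m} (ht : t ∈ P.O j k) (ht' : P.T j k t ∈ P.O k l) :
    t ∈ P.O j l := by
  have h := ψT ht
  obtain ⟨h1, h2, h3, h4, h5⟩ := ht
  obtain ⟨g1, g2, g3, g4, g5⟩ := ht'
  rw [h] at g2 g3 g4 g5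
  have e := C.trans_T _ _ _ _ h2 g2
  refine ⟨h1, C.trans_mem _ _ _ _ h2 g2, ?_, ?_, ?_⟩
  · rw [e]; exact g3
  · rw [C.trans_κ _ _ _ _ h2 g2, A.c_mul, ← add_assoc, h4]; exact g4
  · rw [e]; exact g5

lemma trans_T {j k l : P.J} {t : Cm m} (ht : t ∈ P.O j k) (ht' : P.T j k t ∈ P.O k l) :
    P.T j l t = P.T k l (P.T j k t) := by
  have h := ψT ht
  have g2 := ht'.2.1
  rw [h] at g2
  show P.π l (C.T _ _ (P.ψ j t)) = P.π l (C.T _ _ (P.ψ k (P.T j k t)))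
  rw [h, C.trans_T _ _ _ _ ht.2.1 g2]

lemma trans_κ {j k l : P.J} {t : Cm m} (ht : t ∈ P.O j k) (ht' : P.T j k t ∈ P.O k l) :
    P.κ j l t = P.κ j k t * P.κ k l (P.T j k t) := by
  have h := ψT ht
  have g2 := ht'.2.1
  rw [h] at g2
  unfold κ
  rw [h, C.trans_κ _ _ _ _ ht.2.1 g2]
  group

lemma κ_inv {j k : P.J} {t : Cm m} (ht : t ∈ P.O j k) :
    P.κ k j (P.T j k t) = (P.κ j k t)⁻¹ := by
  have h := trans_κ ht (T_mem ht)
  rw [κ_self ht.1] at h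
  exact (inv_eq_of_mul_eq_one_right h.symm).symm

lemma T_inv {j k : P.J} {t : Cm m} (ht : t ∈ P.O j k) : P.T k j (P.T j k t) = t := by
  rw [← trans_T ht (T_mem ht), T_self ht.1]

lemma cover' {j : P.J} {t : Cm m} (ht : t ∈ ball (P.d j) (4 * P.ρ j)) :
    ∃ l, t ∈ P.O j l ∧ P.T j l t ∈ ball (P.d l) (P.ρ l) := by
  have h5 := P.b45 j ht
  obtain ⟨b, hb1, hb2⟩ := C.cover (P.a j) (P.ψ j t) (P.ψ_Ω h5)
  have hF : A.F b (C.T (P.a j) b (P.ψ j t)) +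
      A.c (P.g j * C.κ (P.a j) b (P.ψ j t)) = y := by
    refine Eq.trans ?_ (P.ψ_on j t h5)
    rw [A.c_mul, A.compat _ _ _ hb1]
    abel
  obtain ⟨l, rfl, hl2, hl3, hl4⟩ := P.cover _ b _ hb2 hF
  refine ⟨l, ⟨ht, hb1, hl3, ?_, ?_⟩, hl4⟩
  · rw [hl2, A.c_mul]
  · exact ball_subset_ball (by have := P.ρ_pos l; linarith) hl4

variable (P)

/-- two pieces overlap -/
def Adj (u v : G × P.J) : Prop :=
  ∃ t ∈ P.O u.2 v.2, t ∈ ball (P.d u.2) (3 * P.ρ u.2) ∧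
    P.T u.2 v.2 t ∈ ball (P.d v.2) (3 * P.ρ v.2) ∧ v.1 = u.1 * P.κ u.2 v.2 t

/-- chains of pieces -/
def Con (u v : G × P.J) : Prop := Relation.ReflTransGen P.Adj u v

variable {P}

lemma Adj.symm {u v : G × P.J} (h : P.Adj u v) : P.Adj v u := by
  obtain ⟨t, ht, h1, h2, h3⟩ := h
  refine ⟨P.T u.2 v.2 t, T_mem ht, h2, ?_, ?_⟩
  · rw [T_inv ht]; exact h1
  · rw [κ_inv ht, h3]; group

lemma Con.symm {u v : G × P.J} (h : P.Con u v) : P.Con v u := by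
  unfold Con at h ⊢
  induction h with
  | refl => exact Relation.ReflTransGen.refl
  | tail _ h2 ih => exact Relation.ReflTransGen.head h2.symm ih

lemma Con.trans {u v w : G × P.J} (h : P.Con u v) (h' : P.Con v w) : P.Con u w :=
  Relation.ReflTransGen.trans h h'

lemma Con.translate {u v : G × P.J} (h : P.Con u v) (x : G) :
    P.Con (x * u.1, u.2) (x * v.1, v.2) := by
  unfold Con at h ⊢
  induction h with
  | refl => exact Relation.ReflTransGen.refl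
  | tail _ h2 ih =>
    refine Relation.ReflTransGen.tail ih ?_
    obtain ⟨t, ht, h1, h2, h3⟩ := h2
    exact ⟨t, ht, h1, h2, by simp only [h3]; group⟩

/-- two small overlaps at the same point -/
lemma con_point {j l l' : P.J} {t : Cm m} (x : G) (h : t ∈ P.O j l)
    (h1 : P.T j l t ∈ ball (P.d l) (P.ρ l)) (h' : t ∈ P.O j l')
    (h1' : P.T j l' t ∈ ball (P.d l') (P.ρ l')) :
    P.Con (x * P.κ j l t, l) (x * P.κ j l' t, l') := by
  have hm : P.T j l t ∈ P.O l l' := by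
    have h2 : P.T l j (P.T j l t) ∈ P.O j l' := by rw [T_inv h]; exact h'
    exact trans_mem (T_mem h) h2
  refine Relation.ReflTransGen.single ⟨P.T j l t, hm, P.b13 l h1, ?_, ?_⟩
  · show P.T l l' (P.T j l t) ∈ _
    rw [← trans_T h hm]
    exact P.b13 l' h1'
  · show x * P.κ j l' t = x * P.κ j l t * P.κ l l' (P.T j l t)
    rw [trans_κ h hm, mul_assoc]

lemma con_ball (x : G) (j : P.J) : ∀ s ∈ ball (P.d j) (4 * P.ρ j), ∃ l, s ∈ P.O j l ∧
    P.T j l s ∈ ball (P.d l) (P.ρ l) ∧ P.Con (x, j) (x * P.κ j l s, l) := by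
  set u : Set (Cm m) := {s | ∃ l, s ∈ P.O j l ∧ P.T j l s ∈ ball (P.d l) (P.ρ l) ∧
    P.Con (x, j) (x * P.κ j l s, l)} with hu
  set v : Set (Cm m) := {s | ∃ l, s ∈ P.O j l ∧ P.T j l s ∈ ball (P.d l) (P.ρ l) ∧
    ¬ P.Con (x, j) (x * P.κ j l s, l)} with hv
  have hopen : ∀ Q : Prop → Prop, IsOpen {s | ∃ l, s ∈ P.O j l ∧
      P.T j l s ∈ ball (P.d l) (P.ρ l) ∧ Q (P.Con (x, j) (x * P.κ j l s, l))} := by
    intro Q
    rw [isOpen_iff_mem_nhds]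
    rintro s ⟨l, h1, h2, h3⟩
    filter_upwards [(O_open j l).mem_nhds h1,
      (T_contAt h1).eventually (isOpen_ball.mem_nhds h2), κ_loc h1] with s' g1 g2 g3
    refine ⟨l, g1, g2, ?_⟩
    rw [g3.1]; exact h3
  have hu' : IsOpen u := hopen id
  have hv' : IsOpen v := hopen Not
  have hd : Disjoint u v := by
    rw [Set.disjoint_left]
    rintro s ⟨l, h1, h2, h3⟩ ⟨l', h1', h2', h3'⟩
    exact h3' (h3.trans (con_point x h1 h2 h1' h2'))
  have hsub : ball (P.d j) (4 * P.ρ j) ⊆ u ∪ v := by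
    intro s hs
    obtain ⟨l, h1, h2⟩ := cover' hs
    by_cases h3 : P.Con (x, j) (x * P.κ j l s, l)
    · exact Or.inl ⟨l, h1, h2, h3⟩
    · exact Or.inr ⟨l, h1, h2, h3⟩
  have hc : P.d j ∈ ball (P.d j) (4 * P.ρ j) := mem_ball_self (by have := P.ρ_pos j; linarith)
  have hne : (ball (P.d j) (4 * P.ρ j) ∩ u).Nonempty := by
    refine ⟨P.d j, hc, j, mem_self hc, ?_, ?_⟩
    · rw [T_self hc]; exact mem_ball_self (P.ρ_pos j)
    · rw [κ_self hc, mul_one]; exact Relation.ReflTransGen.refl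
  have hpre : IsPreconnected (ball (P.d j) (4 * P.ρ j)) := (convex_ball _ _).isPreconnected
  exact fun s hs => hpre.subset_left_of_subset_union hu' hv' hd hsub hne hs

/-- overlaps of the big balls -/
lemma con4 (x : G) {j k : P.J} {t : Cm m} (ht : t ∈ P.O j k) :
    P.Con (x, j) (x * P.κ j k t, k) := by
  obtain ⟨l, h1, h2, h3⟩ := con_ball x j t ht.1
  obtain ⟨l', g1, g2, g3⟩ := con_ball (x * P.κ j k t) k (P.T j k t) ht.2.2.2.2
  have e1 : t ∈ P.O j l' := trans_mem ht g1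
  have e2 : P.T j l' t ∈ ball (P.d l') (P.ρ l') := by rw [trans_T ht g1]; exact g2
  have e3 := con_point x h1 h2 e1 e2
  rw [trans_κ ht g1, ← mul_assoc] at e3
  exact (h3.trans e3).trans g3.symm

end PD

end Vale.Agent.P284.H287.F
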