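import Vale.Agent.P284.H894.Spec

/-!
# P284, next theorem, row S5a (helper287): the fibre of the Albanese lift as a `Coc`: definitions
-/

open scoped Manifold ContDiff Topology ComplexConjugate ComplexOrder
open Filter Set Metric

noncomputable section

namespace Vale.Agent.P284.H287.F

open Vale.Agent.P272.K Vale.Agent.P284.H894

section
variable {n : ℕ} {G : Type} [Group G]

/-- A holomorphic map from the covering to `ℂ^N` which is equivariant for a homomorphism `c` of `G` to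
the translations with discrete image: at the point `(g, a, z)` its value is `F a z + c g`. -/
structure Alb (C : Coc n G) (N : ℕ) where
  F : C.I → Cm n → Cm N
  c : G → Cm N
  c_mul : ∀ g h, c (g * h) = c g + c h
  holo : ∀ a, DifferentiableOn ℂ (F a) (C.Ω a)
  compat : ∀ a b, ∀ z ∈ C.O a b, F a z = F b (C.T a b z) + c (C.κ a b z)
  disc : ∀ R : ℝ, {v | v ∈ range c ∧ ‖v‖ ≤ R}.Finite

/-- the point `(g, a, z)` of the covering lies in the fibre over `y` -/
def Alb.On {C : Coc n G} {N : ℕ} (A : Alb C N) (y : Cm N) (g : G) (a : C.I) (z : Cm n) : Prop :=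
  z ∈ C.Ω a ∧ A.F a z + A.c g = y

/-- `y` is a regular value -/
def Alb.Reg {C : Coc n G} {N : ℕ} (A : Alb C N) (y : Cm N) : Prop :=
  ∀ g a z, A.On y g a z → Function.Surjective (fderiv ℂ (A.F a) z)

/-- A connected component of the fibre over `y`, as a `Coc` of dimension `m` for a subgroup `H` of `G`:
the point `(h, j, t)` of `D` is the point `(h * s j, ix j, ψ j t)` of the covering. -/
structure FibCoc {C : Coc n G} {N : ℕ} (A : Alb C N) (y : Cm N) (m : ℕ) where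
  H : Subgroup G
  D : Coc m H
  ix : D.I → C.I
  s : D.I → G
  ψ : D.I → Cm m → Cm n
  holo : ∀ j, DifferentiableOn ℂ (ψ j) (ball (D.c j) (5 * D.r j))
  imm : ∀ j, ∀ t ∈ ball (D.c j) (5 * D.r j), Function.Injective (fderiv ℂ (ψ j) t)
  maps : ∀ j, ∀ t ∈ ball (D.c j) (5 * D.r j), ψ j t ∈ C.V (ix j)
  on : ∀ j, ∀ t ∈ ball (D.c j) (5 * D.r j), A.F (ix j) (ψ j t) + A.c (s j) = y
  ker : ∀ h : H, A.c h = 0
  dict : ∀ j k, ∀ t ∈ D.O j k, ψ j t ∈ C.O (ix j) (ix k) ∧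
    C.T (ix j) (ix k) (ψ j t) = ψ k (D.T j k t) ∧
    s j * C.κ (ix j) (ix k) (ψ j t) = (D.κ j k t : G) * s k
  /-- the plaques are open in the fibre -/
  plaque : ∀ j, ∀ t ∈ D.Ω j, ∀ᶠ z in 𝓝 (ψ j t), A.F (ix j) z + A.c (s j) = y →
    ∃ t' ∈ D.Ω j, ψ j t' = z
  /-- two pieces which share a point overlap (and differ by an element of `H`) -/
  meet : ∀ (h : G) (j k : D.I) (t t' : Cm m), t ∈ D.Ω j → t' ∈ D.Ω k →
    ψ j t ∈ C.O (ix j) (ix k) → C.T (ix j) (ix k) (ψ j t) = ψ k t' →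
    s j * C.κ (ix j) (ix k) (ψ j t) = h * s k →
    h ∈ H ∧ t ∈ D.O j k ∧ D.T j k t = t' ∧ (D.κ j k t : G) = h

/-- the point `(g, b, z)` of the covering lies in the component -/
def FibCoc.Mem {C : Coc n G} {N : ℕ} {A : Alb C N} {y : Cm N} {m : ℕ} (X : FibCoc A y m)
    (g : G) (b : C.I) (z : Cm n) : Prop :=
  ∃ (h : X.H) (j : X.D.I) (t : Cm m), t ∈ X.D.Ω j ∧ X.ψ j t ∈ C.O (X.ix j) b ∧
    C.T (X.ix j) b (X.ψ j t) = z ∧ g = h * X.s j * C.κ (X.ix j) b (X.ψ j t)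

end

/-- **S5a**: the component of the fibre through a given point. -/
def S5aStmt : Prop :=
  ∀ (n N m : ℕ), n = N + m → ∀ (G : Type) [Group G] (C : Coc n G) (A : Alb C N) (y : Cm N),
    A.Reg y → ∀ (g₀ : G) (a₀ : C.I) (z₀ : Cm n), A.On y g₀ a₀ z₀ →
    ∃ X : FibCoc A y m, X.Mem g₀ a₀ z₀ ∧
      (∀ g b z, A.On y g b z → X.Mem g b z →
        ∀ᶠ z' in 𝓝 z, A.On y g b z' → X.Mem g b z') ∧
      (∀ g b z, A.On y g b z → ¬ X.Mem g b z →
        ∀ᶠ z' in 𝓝 z, A.On y g b z' → ¬ X.Mem g b z')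

end Vale.Agent.P284.H287.F
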