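import Vale.Agent.P284.H287.FibBox

/-!
# P284, row S5a (helper287): finitely many plaques cover the fibre
-/

open scoped Manifold ContDiff Topology ComplexConjugate ComplexOrder
open Filter Set Metric

noncomputable section

namespace Vale.Agent.P284.H287.F

open Vale.Agent.P272.K Vale.Agent.P284.H894

variable {n : ℕ} {G : Type} [Group G]

/-- finitely many plaques covering the fibre up to the kernel of `c` -/
structure PD {C : Coc n G} {N : ℕ} (A : Alb C N) (y : Cm N) (m : ℕ) where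
  J : Type
  fin : Fintype J
  a : J → C.I
  g : J → G
  d : J → Cm m
  ρ : J → ℝ
  ρ_pos : ∀ j, 0 < ρ j
  π : J → Cm n →L[ℂ] Cm m
  U : J → Set (Cm n)
  U_open : ∀ j, IsOpen (U j)
  U_V : ∀ j, U j ⊆ C.V (a j)
  ψ : J → Cm m → Cm n
  holo : ∀ j, DifferentiableOn ℂ (ψ j) (ball (d j) (5 * ρ j))
  ψ_U : ∀ j, ∀ t ∈ ball (d j) (5 * ρ j), ψ j t ∈ U j
  ψ_on : ∀ j, ∀ t ∈ ball (d j) (5 * ρ j), A.F (a j) (ψ j t) + A.c (g j) = y
  π_ψ : ∀ j, ∀ t ∈ ball (d j) (5 * ρ j), π j (ψ j t) = t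
  ψ_π : ∀ j, ∀ z ∈ U j, A.F (a j) z + A.c (g j) = y → ψ j (π j z) = z
  cover : ∀ h b z, z ∈ C.W b → A.F b z + A.c h = y →
    ∃ j, a j = b ∧ A.c (g j) = A.c h ∧ z ∈ U j ∧ π j z ∈ ball (d j) (ρ j)

lemma WV (C : Coc n G) (a : C.I) : closedBall (C.c a) (C.r a) ⊆ C.V a :=
  closedBall_subset_ball (by have := C.r_pos a; linarith)

lemma VO (C : Coc n G) (a : C.I) : C.V a ⊆ C.Ω a :=
  ball_subset_ball (by have := C.r_pos a; linarith)

theorem exists_PD {N m : ℕ} (hn : n = N + m) {C : Coc n G} (A : Alb C N) (y : Cm N)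
    (hreg : A.Reg y) : Nonempty (PD A y m) := by
  classical
  let Good : Type := {q : G × C.I × Cm n // q.2.2 ∈ C.V q.2.1 ∧ A.F q.2.1 q.2.2 + A.c q.1 = y}
  have hbox : ∀ q : Good, ∃ (π : Cm n →L[ℂ] Cm m) (U : Set (Cm n)) (ρ : ℝ) (ψ : Cm m → Cm n),
      0 < ρ ∧ IsOpen U ∧ q.1.2.2 ∈ U ∧ U ⊆ C.V q.1.2.1 ∧
      DifferentiableOn ℂ ψ (ball (π q.1.2.2) (5 * ρ)) ∧
      (∀ t ∈ ball (π q.1.2.2) (5 * ρ), ψ t ∈ U ∧
        A.F q.1.2.1 (ψ t) = A.F q.1.2.1 q.1.2.2 ∧ π (ψ t) = t) ∧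
      ∀ z ∈ U, A.F q.1.2.1 z = A.F q.1.2.1 q.1.2.2 →
        π z ∈ ball (π q.1.2.2) (5 * ρ) ∧ ψ (π z) = z := by
    rintro ⟨⟨g, a, z⟩, hz, hq⟩
    exact exists_box hn isOpen_ball ((A.holo a).mono (VO C a)) hz
      (hreg g a z ⟨VO C a hz, hq⟩)
  choose π U ρ ψ hρ hUo hUz hUV hψ hψU hψπ using hbox
  -- compactness
  have hcov : ∀ (b : C.I) (l : Cm N), ∃ t : Finset Good, l ∈ range A.c →
      ∀ z ∈ closedBall (C.c b) (C.r b), A.F b z + l = y →
        ∃ q ∈ t, q.1.2.1 = b ∧ A.c q.1.1 = l ∧ z ∈ U q ∧ π q z ∈ ball (π q q.1.2.2) (ρ q) := by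
    intro b l
    by_cases hl : l ∈ range A.c
    swap
    · exact ⟨∅, fun h => absurd h hl⟩
    obtain ⟨g, rfl⟩ := hl
    set S : Set (Cm n) := {z | z ∈ closedBall (C.c b) (C.r b) ∧ A.F b z + A.c g = y} with hS
    have hcont : ContinuousOn (fun z => A.F b z + A.c g) (closedBall (C.c b) (C.r b)) :=
      (((A.holo b).mono ((WV C b).trans (VO C b))).continuousOn).add continuousOn_const
    have hScl : IsClosed S :=
      hcont.preimage_isClosed_of_isClosed isClosed_closedBall isClosed_singleton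
    have hSc : IsCompact S :=
      (isCompact_closedBall (C.c b) (C.r b)).of_isClosed_subset hScl fun z hz => hz.1
    let Q : S → Good := fun z => ⟨(g, b, z.1), WV C b z.2.1, z.2.2⟩
    obtain ⟨t, ht⟩ := hSc.elim_nhds_subcover'
      (fun z hz => U (Q ⟨z, hz⟩) ∩ π (Q ⟨z, hz⟩) ⁻¹' ball (π (Q ⟨z, hz⟩) z) (ρ (Q ⟨z, hz⟩)))
      (fun z hz => (((hUo _).inter (isOpen_ball.preimage (π _).continuous)).mem_nhds
        ⟨hUz (Q ⟨z, hz⟩), mem_ball_self (hρ _)⟩))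
    refine ⟨t.image Q, fun _ z hz1 hz2 => ?_⟩
    have hzS : z ∈ S := ⟨hz1, hz2⟩
    obtain ⟨x, hx, hzx⟩ := mem_iUnion₂.1 (ht hzS)
    exact ⟨Q x, Finset.mem_image_of_mem Q hx, rfl, rfl, hzx.1, hzx.2⟩
  choose t ht using hcov
  have hbd : ∀ b : C.I, ∃ R : ℝ, ∀ z ∈ closedBall (C.c b) (C.r b), ‖A.F b z‖ ≤ R := by
    intro b
    have h1 := (isCompact_closedBall (C.c b) (C.r b)).exists_bound_of_continuousOn
      (((A.holo b).mono ((WV C b).trans (VO C b))).continuousOn)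
    exact h1
  choose R hR using hbd
  set Jf : Finset Good := Finset.univ.biUnion fun b =>
    ((A.disc (‖y‖ + R b)).toFinset).biUnion fun l => t b l with hJf
  refine ⟨{
    J := {q : Good // q ∈ Jf}
    fin := inferInstance
    a := fun j => j.1.1.2.1
    g := fun j => j.1.1.1
    d := fun j => π j.1 j.1.1.2.2
    ρ := fun j => ρ j.1
    ρ_pos := fun j => hρ j.1
    π := fun j => π j.1
    U := fun j => U j.1
    U_open := fun j => hUo j.1
    U_V := fun j => hUV j.1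
    ψ := fun j => ψ j.1
    holo := fun j => hψ j.1
    ψ_U := fun j t ht => (hψU j.1 t ht).1
    ψ_on := fun j t ht => by rw [(hψU j.1 t ht).2.1]; exact j.1.2.2
    π_ψ := fun j t ht => (hψU j.1 t ht).2.2
    ψ_π := fun j z hz h => by
      have h2 := j.1.2.2
      exact (hψπ j.1 z hz (add_right_cancel (h.trans h2.symm))).2
    cover := ?_ }⟩
  intro h b z hz hF
  have hz' : z ∈ closedBall (C.c b) (C.r b) := ball_subset_closedBall hz
  obtain ⟨q, hq, hqa, hqc, hqU, hqπ⟩ := ht b (A.c h) ⟨h, rfl⟩ z hz' hF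
  have hl : A.c h ∈ (A.disc (‖y‖ + R b)).toFinset := by
    rw [Set.Finite.mem_toFinset]
    refine ⟨⟨h, rfl⟩, ?_⟩
    have h1 : A.c h = y - A.F b z := by rw [← hF]; abel
    rw [h1]
    exact (norm_sub_le _ _).trans (by have := hR b z hz'; linarith)
  refine ⟨⟨q, ?_⟩, hqa, hqc, hqU, hqπ⟩
  rw [hJf, Finset.mem_biUnion]
  refine ⟨b, Finset.mem_univ _, ?_⟩
  rw [Finset.mem_biUnion]
  exact ⟨_, hl, hq⟩

end Vale.Agent.P284.H287.F
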