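import Vale.Agent.P284.H409.Grp
import Vale.Agent.P284.H409.Fin

/-!
# P284, theorem W for quotients of the fundamental group: the group theory (`GrpStmtQ`, `FinStmtQ`)

`q : Γ → Q` is onto, `G ≤ Γ` of finite index, `c : G → ℂᴺ` has kernel `K` and its values form a lattice.
-/

open scoped commutatorElement Pointwise Topology

noncomputable section

namespace Vale.Agent.P284.H287.Q

open Vale.Agent.P272.K Vale.Agent.P284.H248 Vale.Agent.P284.H894 Vale.Agent.P284.H894.V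
  Vale.Agent.P284.H894.G Vale.Agent.P284.H409

/-- **WGRPQ**: the hypotheses on the group are those of `GrpStmt` for the quotient `Q`; the conclusion is
that of `GrpStmt` for `Γ`. -/
def GrpStmtQ : Prop :=
  ∀ (Γ Q : Type) [Group Γ] [Group Q] (q : Γ →* Q), Function.Surjective q → SubexpGrowth Q →
    Group.FG Q → ∀ (G K : Subgroup Γ), G.FiniteIndex →
    ∀ (N : ℕ) (c : Γ → Cm N), (∀ g ∈ G, ∀ h ∈ G, c (g * h) = c g + c h) →
    (∀ g, g ∈ K ↔ g ∈ G ∧ c g = 0) → (∀ R : ℝ, {v | (∃ g ∈ G, c g = v) ∧ ‖v‖ ≤ R}.Finite) →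
    Submodule.span ℝ (c '' (G : Set Γ)) = ⊤ → Group.FG (K.map q) → VirtIndicable (K.map q) →
    ∃ G₂ : Subgroup Γ, G₂.FiniteIndex ∧ G₂ ≤ G ∧ ∃ (f : Γ → ℝ) (B : Cm N →ₗ[ℝ] Cm N →ₗ[ℝ] ℝ),
      (∀ g' ∈ G₂, ∀ g ∈ G₂, f (g' * g) = f g' + f g + B (c g') (c g)) ∧
      ∃ k ∈ G₂, c k = 0 ∧ f k ≠ 0

/-- **WFINQ**: if the image of `K` in `Q` is finite, `Q` is virtually abelian. -/
def FinStmtQ : Prop :=
  ∀ (Γ Q : Type) [Group Γ] [Group Q] (q : Γ →* Q), Function.Surjective q → Group.FG Q →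
    ∀ (G K : Subgroup Γ), G.FiniteIndex →
    ∀ (N : ℕ) (c : Γ → Cm N), (∀ g ∈ G, ∀ h ∈ G, c (g * h) = c g + c h) →
    (∀ g, g ∈ K ↔ g ∈ G ∧ c g = 0) → Finite (K.map q) → VirtuallyAbelian Q

section
variable {Γ Q : Type} [Group Γ] [Group Q] {q : Γ →* Q}

theorem map_fi (hq : Function.Surjective q) {G : Subgroup Γ} (hG : G.FiniteIndex) :
    (G.map q).FiniteIndex := by
  refine ⟨?_⟩
  have h1 : (G.map q).index ∣ G.index := Subgroup.index_map_dvd G hq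
  intro h0
  rw [h0, zero_dvd_iff] at h1
  exact hG.index_ne_zero h1

/-- the commutators of `q(G)` lie in `q(K)` -/
theorem comm_mem {G K : Subgroup Γ} {N : ℕ} {c : Γ → Cm N}
    (hc : ∀ g ∈ G, ∀ h ∈ G, c (g * h) = c g + c h) (hK : ∀ g, g ∈ K ↔ g ∈ G ∧ c g = 0) :
    ∀ g h : (G.map q), ⁅g, h⁆ ∈ (K.map q).subgroupOf (G.map q) := by
  have hc1 : c 1 = 0 := by
    have := hc 1 G.one_mem 1 G.one_mem
    rw [one_mul] at this
    exact (left_eq_add.1 this)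
  have hci : ∀ g ∈ G, c g⁻¹ = - c g := by
    intro g hg
    have := hc g hg g⁻¹ (G.inv_mem hg)
    rw [mul_inv_cancel, hc1] at this
    exact (neg_eq_of_add_eq_zero_right this.symm).symm
  rintro ⟨_, g, hg, rfl⟩ ⟨_, h, hh, rfl⟩
  rw [Subgroup.mem_subgroupOf]
  refine ⟨⁅g, h⁆, ?_, ?_⟩
  · refine (hK _).2 ?_
    have m1 := G.mul_mem hg hh
    have m2 := G.mul_mem m1 (G.inv_mem hg)
    rw [commutatorElement_def]
    refine ⟨G.mul_mem m2 (G.inv_mem hh), ?_⟩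
    rw [hc _ m2 _ (G.inv_mem hh), hc _ m1 _ (G.inv_mem hg), hc _ hg _ hh, hci _ hg, hci _ hh]
    abel
  · simp [commutatorElement_def]

end

theorem finStmtQ : FinStmtQ := by
  intro Γ Q _ _ q hq hfg G K hGi N c hc hK hfin
  have hKG : K.map q ≤ G.map q := Subgroup.map_mono fun g hg => ((hK g).1 hg).1
  have hGi' := map_fi hq hGi
  have hGfg : Group.FG (G.map q) := Subgroup.fg_of_index_ne_zero (G.map q)
  have hKGf : Finite ((K.map q).subgroupOf (G.map q)) :=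
    Finite.of_equiv _ (Subgroup.subgroupOfEquivOfLe hKG).symm.toEquiv
  obtain ⟨A, hA, -, hAc⟩ := finite_by_abelian ((K.map q).subgroupOf (G.map q)) ⊥ (by
    rw [Subgroup.relIndex_bot_left]
    exact Nat.card_pos.ne') (comm_mem hc hK)
  refine ⟨A.map (G.map q).subtype, ?_, ?_⟩
  · rw [Subgroup.finiteIndex_iff, Subgroup.index_map_subtype]
    exact mul_ne_zero hA.index_ne_zero hGi'.index_ne_zero
  · rintro _ ⟨x, hx, rfl⟩ _ ⟨y, hy, rfl⟩
    have h1 := hAc x hx y hy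
    rw [Subgroup.mem_bot, commutatorElement_eq_one_iff_mul_comm] at h1
    exact congrArg Subtype.val h1

/-- pull-back of the function `f` with defect `ω` from the quotient to `Γ` -/
theorem pull {Γ Q : Type} [Group Γ] [Group Q] (q : Γ →* Q) (G K : Subgroup Γ)
    (hGi : G.FiniteIndex) (N : ℕ) (c : Γ → Cm N) (hc : ∀ g ∈ G, ∀ h ∈ G, c (g * h) = c g + c h)
    (hK : ∀ g, g ∈ K ↔ g ∈ G ∧ c g = 0)
    (hd : ∀ R : ℝ, {v | (∃ g ∈ G, c g = v) ∧ ‖v‖ ≤ R}.Finite)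
    (hs : Submodule.span ℝ (c '' (G : Set Γ)) = ⊤) (G2 : Subgroup Q) (hG2 : G2.FiniteIndex)
    (ω : G2 → G2 → ℝ) (f : G2 → ℝ) (h1 : ∀ a b c, ω (a * b) c = ω a c + ω b c)
    (h2 : ∀ a b c, ω a (b * c) = ω a b + ω a c) (h3 : ∀ a b, ω a b = - ω b a)
    (h4 : ∀ a b, f (a * b) = f a + f b + ω a b)
    (h5 : ∀ a b : G2, (a : Q) ∈ K.map q → ω a b = 0)
    (h6 : ∃ k : G2, (k : Q) ∈ K.map q ∧ f k ≠ 0) :
    ∃ G₂ : Subgroup Γ, G₂.FiniteIndex ∧ G₂ ≤ G ∧ ∃ (f : Γ → ℝ) (B : Cm N →ₗ[ℝ] Cm N →ₗ[ℝ] ℝ),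
      (∀ g' ∈ G₂, ∀ g ∈ G₂, f (g' * g) = f g' + f g + B (c g') (c g)) ∧
      ∃ k ∈ G₂, c k = 0 ∧ f k ≠ 0 := by
  classical
  have hKG : K ≤ G := fun g hg => ((hK g).1 hg).1
  have hc1 : c 1 = 0 := by
    have := hc 1 G.one_mem 1 G.one_mem
    rw [one_mul] at this
    exact (left_eq_add.1 this)
  have hpow : ∀ g ∈ G, ∀ m : ℕ, c (g ^ m) = (m : ℝ) • c g := by
    intro g hg m
    induction m with
    | zero => simp [hc1]
    | succ m ih =>
      rw [pow_succ, hc _ (G.pow_mem hg m) _ hg, ih]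
      push_cast
      rw [add_smul, one_smul]
  set G₂ : Subgroup Γ := G2.comap q ⊓ G with hG₂
  have hcf : (G2.comap q).FiniteIndex := by
    refine ⟨fun h0 => hG2.index_ne_zero ?_⟩
    have : (G2.comap q).index = G2.relIndex q.range := Subgroup.index_comap G2 q
    rw [this] at h0
    have h8 : G2.relIndex q.range ≠ 0 := by
      have := (inferInstance : (G2.subgroupOf q.range).FiniteIndex)
      exact this.index_ne_zero
    exact absurd h0 h8
  have hG₂f : G₂.FiniteIndex := by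
    have := hcf
    have := hGi
    infer_instance
  let q₂ : G₂ → G2 := fun x => ⟨q x, x.2.1⟩
  have hq₂ : ∀ x y, q₂ (x * y) = q₂ x * q₂ y := fun x y => Subtype.ext (map_mul q _ _)
  have hc' : ∀ g h : G₂, c ((g * h : G₂) : Γ) = c g + c h := fun g h => hc _ g.2.2 _ h.2.2
  have hs2 : Submodule.span ℝ (Set.range fun g : G₂ => c (g : Γ)) = ⊤ := by
    rw [eq_top_iff, ← hs, Submodule.span_le]
    rintro _ ⟨g, hg, rfl⟩
    obtain ⟨m, hm, -, hgm⟩ := Subgroup.exists_pow_mem_of_index_ne_zero hG₂f.index_ne_zero g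
    have h6 : (m : ℝ) • c g ∈ Submodule.span ℝ (Set.range fun g : G₂ => c (g : Γ)) := by
      refine Submodule.subset_span ⟨⟨_, hgm⟩, ?_⟩
      exact hpow g hg m
    have h7 : (m : ℝ) ≠ 0 := by exact_mod_cast hm.ne'
    have h8 := Submodule.smul_mem _ ((m : ℝ)⁻¹) h6
    rwa [smul_smul, inv_mul_cancel₀ h7, one_smul] at h8
  have hd2 : ∀ R : ℝ, {v | (∃ g : G₂, c (g : Γ) = v) ∧ ‖v‖ ≤ R}.Finite := by
    intro R
    refine (hd R).subset ?_
    rintro v ⟨⟨g, hg⟩, hv⟩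
    exact ⟨⟨_, g.2.2, hg⟩, hv⟩
  have hz : ∀ a b : G₂, c (a : Γ) = 0 → ω (q₂ a) (q₂ b) = 0 := by
    intro a b ha
    exact h5 _ _ ⟨a, (hK _).2 ⟨a.2.2, ha⟩, rfl⟩
  obtain ⟨B, hB⟩ := exists_bilin (fun g : G₂ => c (g : Γ)) (fun g h => hc' g h) hd2 hs2
    (fun a b => ω (q₂ a) (q₂ b)) (fun a b d => by rw [hq₂, h1]) (fun a b d => by rw [hq₂, h2]) hz
    (fun a b hb => by rw [h3, hz b a hb, neg_zero])
  let F : Γ → ℝ := fun g => if h : q g ∈ G2 then f ⟨q g, h⟩ else 0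
  have hF : ∀ x : G₂, F (x : Γ) = f (q₂ x) := by
    intro x
    simp only [F]
    rw [dif_pos (show q x ∈ G2 from x.2.1)]
  refine ⟨G₂, hG₂f, inf_le_right, F, B, ?_, ?_⟩
  · intro g' hg' g hg
    have h7 := hF (⟨g', hg'⟩ * ⟨g, hg⟩)
    have h8 : F (g' * g) = f (q₂ (⟨g', hg'⟩ * ⟨g, hg⟩)) := h7
    rw [h8, hq₂, h4, hF ⟨g', hg'⟩, hF ⟨g, hg⟩, hB ⟨g', hg'⟩ ⟨g, hg⟩]
  · obtain ⟨k, ⟨x, hx, hxk⟩, hfk⟩ := h6
    have hx2 : x ∈ G₂ := ⟨by
      show q x ∈ G2
      rw [hxk]; exact k.2, hKG hx⟩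
    refine ⟨x, hx2, ((hK x).1 hx).2, ?_⟩
    rw [hF ⟨x, hx2⟩]
    have h7 : q₂ ⟨x, hx2⟩ = k := Subtype.ext hxk
    rw [h7]
    exact hfk

/-- **WGRPQ** -/
theorem grpStmtQ : GrpStmtQ := by
  intro Γ Q _ _ q hq hgr hfg G K hGi N c hc hK hd hs hKfg hKv
  classical
  have hKG : K.map q ≤ G.map q := Subgroup.map_mono fun g hg => ((hK g).1 hg).1
  have hGi' := map_fi hq hGi
  have hGfg : Group.FG (G.map q) := Subgroup.fg_of_index_ne_zero (G.map q)
  have hQ : SubExp Q := hgr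
  have hG : SubExp (G.map q) := hQ.subgroup (G.map q)
  let KG : Subgroup (G.map q) := (K.map q).subgroupOf (G.map q)
  let e : KG ≃* (K.map q) := Subgroup.subgroupOfEquivOfLe hKG
  have hKG' : Group.FG KG := Group.fg_of_surjective (f := e.symm.toMonoidHom) e.symm.surjective
  obtain ⟨H, hHf, φ, hφ⟩ := hKv
  let H' : Subgroup KG := H.comap e.toMonoidHom
  have hH' : H'.FiniteIndex := by
    refine ⟨?_⟩
    rw [Subgroup.index_comap_of_surjective _ e.surjective]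
    exact hHf.index_ne_zero
  let j : H' →* H := (e.toMonoidHom.comp H'.subtype).codRestrict H fun x => x.2
  let φ' : Additive H' →+ ℝ := (Int.castAddHom ℝ).comp
    ((MonoidHom.toAdditiveLeft φ).comp (MonoidHom.toAdditive j))
  have hφ'v : ∀ x : H', φ' (Additive.ofMul x) = ((Multiplicative.toAdd (φ (j x)) : ℤ) : ℝ) :=
    fun x => rfl
  have hφ'0 : φ' ≠ 0 := by
    obtain ⟨x, hx⟩ := hφ (Multiplicative.ofAdd 1)
    intro h0
    have hx' : (e.symm (x : K.map q)) ∈ H' := by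
      change e (e.symm (x : K.map q)) ∈ H
      rw [MulEquiv.apply_symm_apply]; exact x.2
    have h1 := hφ'v ⟨_, hx'⟩
    have h2 : j ⟨_, hx'⟩ = x := by
      refine Subtype.ext ?_
      change e (e.symm (x : K.map q)) = x
      rw [MulEquiv.apply_symm_apply]
    rw [h2, hx, h0] at h1
    simp at h1
  obtain ⟨G2, hG2f, ω, f, h1, h2, h3, h4, h5, k, hkK, hfk⟩ :=
    grp_core hG KG (comm_mem hc hK) H' φ' hφ'0
  -- transport to subgroups of `Q`
  let G2' : Subgroup Q := G2.map (G.map q).subtype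
  let s : G2' ≃* G2 := (G2.equivMapOfInjective (G.map q).subtype
    (G.map q).subtype_injective).symm
  have hs' : ∀ x : G2', (((s x : G2) : G.map q) : Q) = (x : Q) := by
    intro x
    obtain ⟨y, hy⟩ := s.symm.surjective x
    rw [← hy, MulEquiv.apply_symm_apply]
    rfl
  refine pull q G K hGi N c hc hK hd hs G2' ?_ (fun a b => ω (s a) (s b)) (fun a => f (s a))
    (fun a b c => by rw [map_mul, h1]) (fun a b c => by rw [map_mul, h2]) (fun a b => h3 _ _)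
    (fun a b => by rw [map_mul, h4]) ?_ ?_
  · rw [Subgroup.finiteIndex_iff, Subgroup.index_map_subtype]
    exact mul_ne_zero hG2f.index_ne_zero hGi'.index_ne_zero
  · intro a b ha
    refine h5 _ _ ?_
    rw [Subgroup.mem_subgroupOf, hs']
    exact ha
  · refine ⟨s.symm k, ?_, ?_⟩
    · have h6 := hs' (s.symm k)
      rw [MulEquiv.apply_symm_apply] at h6
      rw [← h6]
      exact Subgroup.mem_subgroupOf.1 hkK
    · rw [MulEquiv.apply_symm_apply]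
      exact hfk

end Vale.Agent.P284.H287.Q
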