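import Mathlib.RingTheory.Jacobson.Ring
import Mathlib.LinearAlgebra.Matrix.GeneralLinearGroup.Defs
import Mathlib.GroupTheory.FiniteAbelian.Basic
import Mathlib.Data.Real.Basic
import Mathlib.RingTheory.DedekindDomain.Basic
import Mathlib.RingTheory.PrincipalIdealDomain
import Mathlib.Tactic

/-! # P284, theorem K, row MAL (helper287): finitely generated linear groups are residually finite
(Malcev) -/

namespace Vale.Agent.P284.H287.Mal

open Function

theorem jacobson_int : IsJacobsonRing ℤ := by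
  rw [isJacobsonRing_iff_prime_eq]
  intro P hP
  by_cases h : P = ⊥
  · subst h
    rw [eq_bot_iff]
    intro x hx
    rw [Ideal.mem_jacobson_bot] at hx
    by_contra hx0
    have h1 := hx (2 * x)
    rw [Int.isUnit_iff] at h1
    have h2 : 0 < x * x := mul_self_pos.2 hx0
    rcases h1 with h1 | h1 <;> nlinarith
  · have := hP.isMaximal h
    exact Ideal.jacobson_eq_self_of_isMaximal

theorem finite_field (K : Type*) [Field K] [Algebra.FiniteType ℤ K] : Finite K := by
  have := jacobson_int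
  have h1 : Module.Finite ℤ K := finite_of_finite_type_of_isJacobsonRing ℤ K
  by_cases hinj : Injective (algebraMap ℤ K)
  · exfalso
    have h2 : Algebra.IsIntegral ℤ K := inferInstance
    exact Int.not_isField (isField_of_isIntegral_of_isField hinj (Field.toIsField K))
  · rw [injective_iff_map_eq_zero] at hinj
    push Not at hinj
    obtain ⟨m, hm, hm0⟩ := hinj
    refine Module.finite_of_fg_torsion K fun x => ?_
    refine ⟨⟨m, mem_nonZeroDivisors_of_ne_zero hm0⟩, ?_⟩
    show m • x = 0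
    rw [Algebra.smul_def, hm, zero_mul]

theorem exists_hom (A : Type) [CommRing A] [IsDomain A] [Algebra.FiniteType ℤ A] (a : A)
    (ha : a ≠ 0) : ∃ (K : Type) (_ : Field K) (_ : Finite K) (f : A →+* K), f a ≠ 0 := by
  have := jacobson_int
  have hJ : IsJacobsonRing A := isJacobsonRing_of_finiteType (A := ℤ)
  have h1 : (⊥ : Ideal A).radical = (⊥ : Ideal A).jacobson := Ideal.radical_eq_jacobson _
  have h2 : a ∉ (⊥ : Ideal A).jacobson := by
    rw [← h1]
    intro h
    obtain ⟨k, hk⟩ := h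
    exact pow_ne_zero k ha (Ideal.mem_bot.1 hk)
  rw [Ideal.jacobson, Ideal.mem_sInf] at h2
  push Not at h2
  obtain ⟨M, ⟨-, hM⟩, haM⟩ := h2
  have h3 : Algebra.FiniteType ℤ (A ⧸ M) :=
    Algebra.FiniteType.of_surjective (Ideal.Quotient.mkₐ ℤ M) (Ideal.Quotient.mkₐ_surjective ℤ M)
  exact ⟨A ⧸ M, Ideal.Quotient.field M, @finite_field (A ⧸ M) (Ideal.Quotient.field M) h3, Ideal.Quotient.mk M,
    fun h => haM (Ideal.Quotient.eq_zero_iff_mem.1 h)⟩

/-- residually finite -/
def RF (Q : Type*) [Group Q] : Prop :=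
  ∀ q : Q, q ≠ 1 → ∃ N : Subgroup Q, N.Normal ∧ N.FiniteIndex ∧ q ∉ N

theorem malcev {G : Type} [Group G] [Group.FG G] (d : ℕ)
    (R : G →* Matrix.GeneralLinearGroup (Fin d) ℝ) : RF R.range := by
  classical
  obtain ⟨S, hS⟩ := (Group.fg_def.1 ‹Group.FG G›)
  obtain ⟨T, hT⟩ : ∃ T : Set ℝ, T = ⋃ g ∈ S, ⋃ i, ⋃ j,
    {(R g : Matrix (Fin d) (Fin d) ℝ) i j, (R g⁻¹ : Matrix (Fin d) (Fin d) ℝ) i j} := ⟨_, rfl⟩
  have hTf : T.Finite := by
    rw [hT]
    refine S.finite_toSet.biUnion fun g _ => Set.finite_iUnion fun i => Set.finite_iUnion fun j =>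
      Set.toFinite _
  let A := Algebra.adjoin ℤ T
  have hAf : Algebra.FiniteType ℤ A :=
    Subalgebra.fg_iff_finiteType _ |>.1 (Subalgebra.fg_def.2 ⟨T, hTf, rfl⟩)
  have hmem : ∀ g : G, ∀ i j, (R g : Matrix (Fin d) (Fin d) ℝ) i j ∈ A ∧
      (R g⁻¹ : Matrix (Fin d) (Fin d) ℝ) i j ∈ A := by
    intro g
    have hg : g ∈ Subgroup.closure (S : Set G) := by rw [hS]; trivial
    induction hg using Subgroup.closure_induction with
    | mem g hg =>
      intro i j
      constructor
      · refine Algebra.subset_adjoin ?_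
        rw [hT]
        simp only [Set.mem_iUnion]
        exact ⟨g, hg, i, j, Or.inl rfl⟩
      · refine Algebra.subset_adjoin ?_
        rw [hT]
        simp only [Set.mem_iUnion]
        exact ⟨g, hg, i, j, Or.inr rfl⟩
    | one =>
      intro i j
      simp only [inv_one, map_one, Units.val_one, Matrix.one_apply]
      split_ifs
      · exact ⟨A.one_mem, A.one_mem⟩
      · exact ⟨A.zero_mem, A.zero_mem⟩
    | mul g h _ _ hg hh =>
      intro i j
      rw [mul_inv_rev, map_mul, map_mul, Units.val_mul, Units.val_mul, Matrix.mul_apply,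
        Matrix.mul_apply]
      exact ⟨A.sum_mem fun k _ => A.mul_mem (hg i k).1 (hh k j).1,
        A.sum_mem fun k _ => A.mul_mem (hh i k).2 (hg k j).2⟩
    | inv g _ hg =>
      intro i j
      rw [inv_inv]
      exact ⟨(hg i j).2, (hg i j).1⟩
  let μ : G →* Matrix (Fin d) (Fin d) A :=
    { toFun := fun g => Matrix.of fun i j => ⟨(R g : Matrix (Fin d) (Fin d) ℝ) i j, (hmem g i j).1⟩
      map_one' := by
        ext i j
        simp only [map_one, Units.val_one, Matrix.of_apply, Matrix.one_apply]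
        split_ifs <;> rfl
      map_mul' := by
        intro g h
        ext i j
        simp only [map_mul, Units.val_mul, Matrix.of_apply, Matrix.mul_apply]
        push_cast
        rfl }
  have hμ : ∀ g i j, ((μ g i j : A) : ℝ) = (R g : Matrix (Fin d) (Fin d) ℝ) i j := fun _ _ _ => rfl
  rintro ⟨_, g, rfl⟩ hq
  have h1 : R g ≠ 1 := fun h => hq (Subtype.ext h)
  obtain ⟨i, j, hij⟩ : ∃ i j, (R g : Matrix (Fin d) (Fin d) ℝ) i j ≠
      (1 : Matrix (Fin d) (Fin d) ℝ) i j := by
    by_contra hcon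
    push Not at hcon
    exact h1 (Units.ext (Matrix.ext hcon))
  have h2 : μ g i j - (1 : Matrix (Fin d) (Fin d) A) i j ≠ 0 := by
    intro h
    apply hij
    have h3 : μ g i j = (1 : Matrix (Fin d) (Fin d) A) i j := sub_eq_zero.1 h
    rw [← hμ, h3, Matrix.one_apply, Matrix.one_apply]
    split_ifs <;> rfl
  obtain ⟨K, _, _, f, hf⟩ := exists_hom A _ h2
  let ν : G →* (Matrix (Fin d) (Fin d) K)ˣ := ((f.mapMatrix : _ →+* Matrix (Fin d) (Fin d) K).toMonoidHom.comp μ).toHomUnits
  have hν : ∀ g, ((ν g : (Matrix (Fin d) (Fin d) K)ˣ) : Matrix (Fin d) (Fin d) K) =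
      (μ g).map f := fun g => rfl
  have hfin : Finite (Matrix (Fin d) (Fin d) K)ˣ := inferInstance
  have hker : ν.ker.FiniteIndex := inferInstance
  have hsur : Surjective R.rangeRestrict := R.rangeRestrict_surjective
  refine ⟨ν.ker.map R.rangeRestrict, Subgroup.Normal.map inferInstance _ hsur, ⟨?_⟩, ?_⟩
  · intro h0
    have h4 := Subgroup.index_map_dvd ν.ker hsur
    rw [h0, zero_dvd_iff] at h4
    exact hker.index_ne_zero h4
  · rintro ⟨g', hg', hgg⟩
    have h5 : R g' = R g := congrArg Subtype.val hgg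
    have h6 : μ g' = μ g := by
      ext a b
      rw [hμ, hμ, h5]
    have h7 : ν g' = 1 := hg'
    have h8 : (μ g).map f = 1 := by rw [← h6, ← hν, h7]; rfl
    apply hf
    rw [map_sub, sub_eq_zero]
    have h9 : f (μ g i j) = (1 : Matrix (Fin d) (Fin d) K) i j := by
      rw [← h8]; rfl
    rw [h9, Matrix.one_apply, Matrix.one_apply]
    split_ifs
    · rw [map_one]
    · rw [map_zero]

end Vale.Agent.P284.H287.Mal
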