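import Vale.Agent.P284.H913.SheetEx
import Mathlib.RingTheory.Derivation.Basic

/-!
# P284, theorem W, row WS3: algebraically independent polynomials have generically independent
differentials
-/

open scoped Topology
open Filter Set MvPolynomial

noncomputable section

namespace Vale.Agent.P284.H287.R1

open Vale.Agent.P272.K Vale.Agent.P284.H913 Vale.Agent.P284.H913.Ex

/-- an element algebraic over the subring `B` is killed by every `B`-derivation (characteristic `0`) -/
theorem der_zero {A B : Type*} [CommRing A] [IsDomain A] [CommRing B] [IsDomain B] [CharZero B]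
    [Algebra B A] (hinj : Function.Injective (algebraMap B A)) (D : Derivation B A A) (x : A)
    (d : ℕ) : ∀ p : Polynomial B, p ≠ 0 → p.natDegree ≤ d → Polynomial.aeval x p = 0 → D x = 0 := by
  induction d with
  | zero =>
    intro p hp hd h0
    exfalso
    apply hp
    obtain ⟨b, hb⟩ := Polynomial.natDegree_eq_zero.1 (Nat.le_zero.1 hd)
    rw [← hb, Polynomial.aeval_C] at h0
    have : b = 0 := hinj (by rw [h0, map_zero])
    rw [← hb, this, map_zero]
  | succ d ih =>
    intro p hp hd h0
    by_cases hn : p.natDegree = 0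
    · exact ih p hp (by omega) h0
    have h1 : Polynomial.aeval x (Polynomial.derivative p) • D x = 0 := by
      rw [← D.map_aeval, h0, map_zero]
    rw [smul_eq_mul] at h1
    rcases mul_eq_zero.1 h1 with h2 | h2
    · refine ih _ ?_ ?_ h2
      · intro h3
        exact hn (Polynomial.derivative_eq_zero.1 h3)
      · have := Polynomial.natDegree_derivative_lt hn
        omega
    · exact h2

variable {n : ℕ}

theorem jac_ne_zero (R : Fin n → MvPolynomial (Fin n) ℂ) (hi : AlgebraicIndependent ℂ R) :
    (JP R).det ≠ 0 := by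
  intro h0
  obtain ⟨v, hv, hJ⟩ := Matrix.exists_mulVec_eq_zero_iff.2 h0
  apply hv
  have ht : IsTranscendenceBasis ℂ R := by
    refine hi.isTranscendenceBasis_of_trdeg_le_of_finite ?_
    rw [MvPolynomial.trdeg_of_isDomain]
    simp
  have ha := ht.isAlgebraic
  let D : Derivation ℂ (MvPolynomial (Fin n) ℂ) (MvPolynomial (Fin n) ℂ) :=
    MvPolynomial.mkDerivation ℂ v
  have hDX : ∀ j, D (X j) = v j := fun j => MvPolynomial.mkDerivation_X ℂ v j
  have hD : ∀ Q, D Q = ∑ j, pderiv j Q * v j := by
    intro Q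
    induction Q using MvPolynomial.induction_on with
    | C a =>
      have h1 : D (C a) = 0 := D.map_algebraMap a
      rw [h1]
      simp
    | add p q hp hq =>
      rw [map_add, hp, hq, ← Finset.sum_add_distrib]
      exact Finset.sum_congr rfl fun j _ => by rw [map_add, add_mul]
    | mul_X p k hp =>
      rw [Derivation.leibniz, hp, hDX, smul_eq_mul, smul_eq_mul, Finset.mul_sum]
      have h2 : ∀ j, pderiv j (p * X k) * v j =
          X k * (pderiv j p * v j) + (if j = k then p * v k else 0) := by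
        intro j
        rw [Derivation.leibniz, smul_eq_mul, smul_eq_mul]
        split_ifs with h
        · subst h
          rw [pderiv_X_self]; ring
        · rw [pderiv_X_of_ne (Ne.symm h)]; ring
      rw [Finset.sum_congr rfl fun j _ => h2 j, Finset.sum_add_distrib, Finset.sum_ite_eq']
      simp only [Finset.mem_univ, if_true]
      rw [add_comm]
  have hDR : ∀ i, D (R i) = 0 := by
    intro i
    rw [hD]
    exact congrFun hJ i
  have hDB : ∀ b ∈ Algebra.adjoin ℂ (range R), D b = 0 := by
    intro b hb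
    have h1 : Set.EqOn D (0 : Derivation ℂ (MvPolynomial (Fin n) ℂ) (MvPolynomial (Fin n) ℂ))
        (Algebra.adjoin ℂ (range R)) := by
      refine Derivation.eqOn_adjoin ?_
      rintro _ ⟨i, rfl⟩
      rw [hDR]; rfl
    exact h1 hb
  let D' : Derivation (Algebra.adjoin ℂ (range R)) (MvPolynomial (Fin n) ℂ)
      (MvPolynomial (Fin n) ℂ) :=
    { toFun := fun x => D x
      map_add' := fun x y => map_add D x y
      map_smul' := by
        intro b x
        rw [Algebra.smul_def, Derivation.leibniz]
        have h1 : D (algebraMap (Algebra.adjoin ℂ (range R)) _ b) = 0 := hDB _ b.2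
        rw [h1, smul_zero, add_zero]
        rfl
      map_one_eq_zero' := D.map_one_eq_zero
      leibniz' := fun x y => D.leibniz x y }
  funext j
  rw [Pi.zero_apply, ← hDX]
  obtain ⟨p, hp, hpx⟩ := ha.isAlgebraic (X j : MvPolynomial (Fin n) ℂ)
  have := der_zero (B := Algebra.adjoin ℂ (range R)) Subtype.val_injective D' (X j) p.natDegree p
    hp le_rfl hpx
  exact this

/-- **RANK (1)** -/
theorem rank_of_algInd {N : ℕ} (P : Fin N → MvPolynomial (Fin n) ℂ)
    (hP : AlgebraicIndependent ℂ P) : ∃ b : MvPolynomial (Fin n) ℂ, b ≠ 0 ∧ ∀ ζ, eval ζ b ≠ 0 →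
      Function.Surjective (fderiv ℂ (fun ζ : Cm n => fun i => eval ζ (P i)) ζ) := by
  obtain ⟨t, hst, ht⟩ := exists_isTranscendenceBasis_superset (R := ℂ)
    (A := MvPolynomial (Fin n) ℂ) (s := range P) hP.coe_range
  have hc : Cardinal.mk t = n := by
    rw [ht.cardinalMk_eq_trdeg, MvPolynomial.trdeg_of_isDomain]
    simp
  have hfin : Finite t := by
    rw [← Cardinal.lt_aleph0_iff_finite, hc]
    exact Cardinal.natCast_lt_aleph0
  have hcard : Nat.card t = n := by
    rw [Nat.card, hc, Cardinal.toNat_natCast]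
  let e : t ≃ Fin n := Finite.equivFinOfCardEq hcard
  let R : Fin n → MvPolynomial (Fin n) ℂ := fun i => (e.symm i : MvPolynomial (Fin n) ℂ)
  have hR : AlgebraicIndependent ℂ R := ht.1.comp e.symm e.symm.injective
  have hdet := jac_ne_zero R hR
  refine ⟨(JP R).det, hdet, fun ζ hζ y => ?_⟩
  classical
  -- the indices of the `P i`
  let k : Fin N → Fin n := fun i => e ⟨P i, hst ⟨i, rfl⟩⟩
  have hk : ∀ i, R (k i) = P i := fun i => by
    show ((e.symm (e ⟨P i, hst ⟨i, rfl⟩⟩) : t) : MvPolynomial (Fin n) ℂ) = P i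
    rw [Equiv.symm_apply_apply]
  have hki : Function.Injective k := by
    intro i j hij
    refine hP.injective ?_
    rw [← hk i, ← hk j, hij]
  obtain ⟨τ, -, -, -, hτ⟩ := local_inv R ζ hζ
  let w : Cm n := fun j => if h : ∃ i, k i = j then y h.choose else 0
  have hw : ∀ i, w (k i) = y i := by
    intro i
    have h : ∃ i', k i' = k i := ⟨i, rfl⟩
    have h1 : h.choose = i := hki h.choose_spec
    simp only [w]
    rw [dif_pos h, h1]
  refine ⟨fderiv ℂ τ (RR R ζ) w, ?_⟩
  have h1 : HasFDerivAt (fun ζ : Cm n => fun i => eval ζ (P i))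
      (ContinuousLinearMap.pi fun i => ∑ j, eval ζ (pderiv j (P i)) •
        (ContinuousLinearMap.proj j : Cm n →L[ℂ] ℂ)) ζ :=
    hasFDerivAt_pi.2 fun i => hasFDerivAt_eval (P i) ζ
  rw [h1.fderiv]
  funext i
  have h2 := congrFun (hτ w) (k i)
  rw [hw] at h2
  rw [← h2]
  simp [J, JP, Matrix.mulVec, dotProduct, hk]

/-- otherwise there is a relation -/
theorem rel_of_not_algInd {N : ℕ} (P : Fin N → MvPolynomial (Fin n) ℂ)
    (hP : ¬ AlgebraicIndependent ℂ P) : ∃ q : MvPolynomial (Fin N) ℂ, q ≠ 0 ∧
      ∀ ζ : Cm n, eval (fun i => eval ζ (P i)) q = 0 := by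
  rw [algebraicIndependent_iff] at hP
  push Not at hP
  obtain ⟨q, hq, hq0⟩ := hP
  refine ⟨q, hq0, fun ζ => ?_⟩
  have h1 : ∀ Q : MvPolynomial (Fin N) ℂ,
      eval ζ (aeval P Q) = eval (fun i => eval ζ (P i)) Q := by
    intro Q
    induction Q using MvPolynomial.induction_on with
    | C a => simp
    | add p q hp hq => simp only [map_add, hp, hq]
    | mul_X p k hp => simp only [map_mul, aeval_X, hp, eval_X]
  rw [← h1, hq, map_zero]

theorem dep {N : ℕ} (P : Fin N → MvPolynomial (Fin n) ℂ)
    (h : ∀ ζ : Cm n, ¬ Function.Surjective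
      (fderiv ℂ (fun ζ : Cm n => fun i => MvPolynomial.eval ζ (P i)) ζ)) :
    ∃ q : MvPolynomial (Fin N) ℂ, q ≠ 0 ∧
      ∀ ζ, MvPolynomial.eval (fun i => MvPolynomial.eval ζ (P i)) q = 0 := by
  by_cases hP : AlgebraicIndependent ℂ P
  · obtain ⟨b, hb, hs⟩ := rank_of_algInd P hP
    obtain ⟨ζ, hζ⟩ : ∃ ζ : Cm n, eval ζ b ≠ 0 := by
      by_contra hcon
      push Not at hcon
      exact hb (MvPolynomial.funext fun z => by rw [hcon z, map_zero])
    exact absurd (hs ζ hζ) (h ζ)
  · exact rel_of_not_algInd P hP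

end Vale.Agent.P284.H287.R1
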