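import Vale.Agent.P284.H287.S4c
import Vale.Agent.P284.H10.S4i
import Vale.Agent.P284.H35.S4b

/-!
# P284, theorem W: `S4Stmt2` and `S4Stmt`, without hypotheses
-/

open Vale.Agent.P284.H894.W

namespace Vale.Agent.P284.H287.S4c

theorem s4Stmt2 : S4Stmt2 := s4cStmt H10.s4aStmt H35.S4.s4bStmt

theorem s4Stmt : S4Stmt := by
  intro n X _ _ _ _ _ _ w hw Φ hΦ
  exact s4Stmt2 n X w hw Φ hΦ.holo

end Vale.Agent.P284.H287.S4c
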