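import Vale.Agent.P284.H894.W.Spec2
import Vale.Agent.P284.H913.SheetEx
import Vale.Agent.P284.H10.S4h
import Vale.Agent.P284.H35.S4bAbs

/-!
# P284, theorem W, row WS4C: the number of components of a generic fibre is finite
-/

open scoped Manifold ContDiff Topology Pointwise
open Filter Set Metric MvPolynomial

noncomputable section

namespace Vale.Agent.P284.H287.S4c

open Vale.Agent.P272.K Vale.Agent.P284.H248 Vale.Agent.P284.H894 Vale.Agent.P284.H894.G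
  Vale.Agent.P284.H894.V Vale.Agent.P284.H894.W Vale.Agent.P284.H913 Vale.Agent.P284.H913.Ex
  Vale.Agent.P284.H35.S4 Vale.Agent.P284.H10

/-! ### Restriction of `P` to a plane -/

section
variable {n N : ℕ}

/-- restriction of a polynomial to the plane `ζ₀ + ι` -/
def rs (ζ₀ : Cm n) (ι : Cm N →ₗ[ℂ] Cm n) (Q : MvPolynomial (Fin n) ℂ) : MvPolynomial (Fin N) ℂ :=
  aeval (fun j => C (ζ₀ j) + ∑ k, C (ι (Pi.single k 1) j) * X k) Q

theorem eval_rs (ζ₀ : Cm n) (ι : Cm N →ₗ[ℂ] Cm n) (Q : MvPolynomial (Fin n) ℂ) (z : Cm N) :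
    eval z (rs ζ₀ ι Q) = eval (ζ₀ + ι z) Q := by
  unfold rs
  induction Q using MvPolynomial.induction_on with
  | C a => simp
  | add p q hp hq => rw [map_add, map_add, hp, hq, map_add]
  | mul_X p i hp =>
    rw [map_mul, map_mul, hp, map_mul, aeval_X, eval_X]
    congr 1
    rw [map_add, eval_C, map_sum, Pi.add_apply]
    congr 1
    have h1 : z = ∑ k, z k • (Pi.single k 1 : Cm N) := by
      funext j
      simp [Finset.sum_apply, Pi.single_apply]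
    conv_rhs => rw [h1]
    rw [map_sum, Finset.sum_apply]
    refine Finset.sum_congr rfl fun k _ => ?_
    rw [map_mul, eval_C, eval_X, map_smul, Pi.smul_apply, smul_eq_mul, mul_comm]

theorem exists_plane (P : Fin N → MvPolynomial (Fin n) ℂ) (ζ₀ : Cm n)
    (hP : Function.Surjective (fderiv ℂ (fun ζ : Cm n => fun i => eval ζ (P i)) ζ₀)) :
    ∃ ι : Cm N →ₗ[ℂ] Cm n, eval 0 (JP (fun i => rs ζ₀ ι (P i))).det ≠ 0 := by
  set D : Cm n →L[ℂ] Cm N := fderiv ℂ (fun ζ : Cm n => fun i => eval ζ (P i)) ζ₀ with hD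
  obtain ⟨ι, hι⟩ := LinearMap.exists_rightInverse_of_surjective D.toLinearMap
    (LinearMap.range_eq_top.2 hP)
  refine ⟨ι, fun hdet => ?_⟩
  set R := fun i => rs ζ₀ ι (P i) with hR
  rw [← J_det] at hdet
  obtain ⟨x, hx, hJ⟩ := Matrix.exists_mulVec_eq_zero_iff.2 hdet
  apply hx
  have h1 := hasFDerivAt_RR R 0
  have hd : DifferentiableAt ℂ (fun ζ : Cm n => fun i => eval ζ (P i)) (ζ₀ + ι 0) := by
    rw [differentiableAt_pi]
    exact fun i => (hasFDerivAt_eval (P i) _).differentiableAt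
  have h2 : HasFDerivAt (fun z : Cm N => ζ₀ + ι z) (LinearMap.toContinuousLinearMap ι) 0 :=
    (LinearMap.toContinuousLinearMap ι).hasFDerivAt.const_add ζ₀
  have h3 : HasFDerivAt (RR R) (D.comp (LinearMap.toContinuousLinearMap ι)) 0 := by
    have h4 := hd.hasFDerivAt.comp (0 : Cm N) h2
    have h5 : (fun ζ : Cm n => fun i => eval ζ (P i)) ∘ (fun z : Cm N => ζ₀ + ι z) = RR R := by
      funext z i
      exact (eval_rs ζ₀ ι (P i) z).symm
    rw [h5, map_zero, add_zero] at h4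
    exact h4
  have h6 := congrArg (fun T : Cm N →L[ℂ] Cm N => T x) (h1.unique h3)
  have h7 : D (ι x) = x := congrArg (fun T : Cm N →ₗ[ℂ] Cm N => T x) hι
  have h8 : (LinearMap.toContinuousLinearMap (Matrix.toLin' (J R 0))) x = 0 := by
    simpa using hJ
  have h9 : (LinearMap.toContinuousLinearMap (Matrix.toLin' (J R 0))) x = D (ι x) := h6
  rw [← h7, ← h9, h8]

theorem open_of_det (R : Fin N → MvPolynomial (Fin N) ℂ) (z : Cm N)
    (hdet : eval z (JP R).det ≠ 0) : 𝓝 (RR R z) ≤ map (RR R) (𝓝 z) := by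
  obtain ⟨τ, h1, h2, -, -⟩ := local_inv R z hdet
  intro U hU
  rw [Filter.mem_map] at hU
  have hc : ContinuousAt τ (RR R z) := (h2.self_of_nhds.2).continuousAt
  have h3 : ∀ᶠ w in 𝓝 (RR R z), τ w ∈ RR R ⁻¹' U := by
    refine hc.eventually ?_
    rw [h1]
    exact hU
  filter_upwards [h2, h3] with w hw hw'
  rw [← hw.1]
  exact hw'

theorem plane (P : Fin N → MvPolynomial (Fin n) ℂ)
    (hP : ∃ ζ, Function.Surjective (fderiv ℂ (fun ζ : Cm n => fun i => eval ζ (P i)) ζ)) :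
    ∃ (ℓ : Cm N → Cm n) (R : Cm N → Cm N) (a : MvPolynomial (Fin N) ℂ), a ≠ 0 ∧ Continuous ℓ ∧
      Continuous R ∧ (∀ z i, eval (ℓ z) (P i) = R z i) ∧
      (∀ v, eval v a ≠ 0 → {z | R z = v}.Finite) ∧
      (∀ z, eval (R z) a ≠ 0 → 𝓝 (R z) ≤ map R (𝓝 z)) ∧
      (∀ v, eval v a ≠ 0 → ∃ Q : Set (Cm N), IsCompact Q ∧ ∀ᶠ v' in 𝓝 v, ∀ z, R z = v' → z ∈ Q) ∧
      ∃ z₀, 𝓝 (R z₀) ≤ map R (𝓝 z₀) := by
  obtain ⟨ζ₀, hP⟩ := hP
  obtain ⟨ι, hι⟩ := exists_plane P ζ₀ hP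
  set R := fun i => rs ζ₀ ι (P i) with hR
  obtain ⟨a, ha, s, D, K, hK, h1, h2⟩ := C1.c1 R (by
    intro h0
    apply hι
    have : (JP R).det = 0 := h0
    rw [this, map_zero])
  have hRc : Continuous (RR R) := (contDiff_RR R).continuous
  refine ⟨fun z => ζ₀ + ι z, RR R, a, ha, ?_, hRc, fun z i => (eval_rs ζ₀ ι (P i) z).symm,
    fun v hv => (h2 v hv).1, ?_, ?_, 0, open_of_det R 0 hι⟩
  · exact continuous_const.add (LinearMap.toContinuousLinearMap ι).continuous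
  · intro z hz
    refine open_of_det R z fun h0 => hz ?_
    have h3 := (h1 z).2
    have h4 : eval z (Matrix.of fun i j => pderiv j (R i)).det = 0 := h0
    rw [h4, norm_zero, mul_zero] at h3
    exact norm_le_zero_iff.1 h3
  · intro v hv
    have hac : Continuous fun w : Cm N => eval w a :=
      (H5.C2.differentiable_eval a).continuous
    set δ := ‖eval v a‖ / 2 with hδ
    have hδ0 : 0 < δ := by
      have := norm_pos_iff.2 hv
      positivity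
    refine ⟨closedBall 0 (K * (1 + (‖v‖ + 1)) ^ s / δ), isCompact_closedBall _ _, ?_⟩
    have h3 : ∀ᶠ v' in 𝓝 v, δ < ‖eval v' a‖ := by
      refine hac.norm.continuousAt.eventually (lt_mem_nhds ?_)
      rw [hδ]
      have := norm_pos_iff.2 hv
      linarith
    filter_upwards [h3, ball_mem_nhds v one_pos] with v' hv' hb z hz
    rw [mem_closedBall_zero_iff, pi_norm_le_iff_of_nonneg (by positivity)]
    intro j
    rw [le_div_iff₀ hδ0]
    have h4 := (h1 z).1 j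
    have h5 : (fun i => eval z (R i)) = v' := hz
    rw [h5] at h4
    have h6 : ‖v'‖ ≤ ‖v‖ + 1 := by
      have := mem_ball_iff_norm.1 hb
      calc ‖v'‖ = ‖v + (v' - v)‖ := by congr 1; abel
        _ ≤ ‖v‖ + ‖v' - v‖ := norm_add_le _ _
        _ ≤ _ := by linarith
    calc ‖z j‖ * δ ≤ ‖z j‖ * ‖eval v' a‖ := by gcongr
      _ ≤ K * (1 + ‖v'‖) ^ s := h4
      _ ≤ _ := by gcongr

end

/-! ### Every component of a generic fibre is met -/

theorem all_meet {E Y Z : Type*} [TopologicalSpace E] [TopologicalSpace Y] [T2Space Y]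
    [TopologicalSpace Z] (F : E → Y) (hF : Continuous F) (T : Set Y) (hT : IsClosed T)
    (hpre : IsPreconnected (F ⁻¹' Tᶜ)) (rel : E → E → Prop) (hrefl : ∀ x, rel x x)
    (hrel : ∀ y y', F y = F y' → F y ∉ T → ∃ U ∈ 𝓝 y, ∃ U' ∈ 𝓝 y', ∀ x ∈ U, ∀ x' ∈ U',
      F x = F x' → (rel x x' ↔ rel y y'))
    (R : Z → Y) (hR : Continuous R) (ψ : Z → E) (hψ : Continuous ψ) (hFψ : ∀ z, F (ψ z) = R z)
    (hopen : ∀ z, R z ∉ T → 𝓝 (R z) ≤ map R (𝓝 z))
    (hprop : ∀ v, v ∉ T → ∃ Q : Set Z, IsCompact Q ∧ ∀ᶠ v' in 𝓝 v, ∀ z, R z = v' → z ∈ Q)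
    (hne : ∃ z, R z ∉ T) (x : E) (hx : F x ∉ T) : ∃ z, R z = F x ∧ rel x (ψ z) := by
  by_contra hcon
  set A : Set E := {x | F x ∉ T ∧ ∃ z, R z = F x ∧ rel x (ψ z)} with hA
  set A' : Set E := {x | F x ∉ T ∧ ¬ ∃ z, R z = F x ∧ rel x (ψ z)} with hA'
  have hΩ : ∀ x, F x ∉ T → ∀ᶠ y in 𝓝 x, F y ∉ T := fun x hx =>
    hF.continuousAt.eventually (hT.isOpen_compl.mem_nhds hx)
  have hAo : IsOpen A := by
    rw [isOpen_iff_mem_nhds]
    rintro y ⟨hy, z, hz, hyz⟩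
    obtain ⟨U, hU, U', hU', hUU⟩ := hrel y (ψ z) (by rw [hFψ, hz]) hy
    have h1 : R '' (ψ ⁻¹' U') ∈ 𝓝 (F y) := by
      rw [← hz]
      refine hopen z (by rw [hz]; exact hy) ?_
      rw [Filter.mem_map]
      exact mem_of_superset (hψ.continuousAt hU') (subset_preimage_image R _)
    filter_upwards [hΩ y hy, hU, hF.continuousAt h1] with y' h2 h3 h4
    obtain ⟨z', h5, h6⟩ := h4
    exact ⟨h2, z', h6, (hUU y' h3 (ψ z') h5 (by rw [hFψ, h6])).2 hyz⟩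
  have hAo' : IsOpen A' := by
    rw [isOpen_iff_mem_nhds]
    rintro y ⟨hy, hyn⟩
    obtain ⟨Q, hQ, hQev⟩ := hprop (F y) hy
    have key : ∃ U ∈ 𝓝 y, ∀ x₁ ∈ U, ∀ z' ∈ Q, R z' = F x₁ → ¬ rel x₁ (ψ z') := by
      refine hQ.induction_on (p := fun S => ∃ U ∈ 𝓝 y, ∀ x₁ ∈ U, ∀ z' ∈ S, R z' = F x₁ →
        ¬ rel x₁ (ψ z')) ⟨univ, univ_mem, by simp⟩ ?_ ?_ ?_
      · rintro s t hst ⟨U, hU, h⟩
        exact ⟨U, hU, fun x₁ hx₁ z' hz' => h x₁ hx₁ z' (hst hz')⟩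
      · rintro s t ⟨U, hU, h⟩ ⟨V, hV, h'⟩
        refine ⟨U ∩ V, inter_mem hU hV, fun x₁ hx₁ z' hz' => ?_⟩
        rcases hz' with hz' | hz'
        · exact h x₁ hx₁.1 z' hz'
        · exact h' x₁ hx₁.2 z' hz'
      · intro z hz
        by_cases hzy : R z = F y
        · obtain ⟨U, hU, U', hU', hUU⟩ := hrel y (ψ z) (by rw [hFψ, hzy]) hy
          refine ⟨ψ ⁻¹' U', mem_nhdsWithin_of_mem_nhds (hψ.continuousAt hU'), U, hU,
            fun x₁ hx₁ z' hz' hzx hr => ?_⟩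
          exact hyn ⟨z, hzy, (hUU x₁ hx₁ (ψ z') hz' (by rw [hFψ, hzx])).1 hr⟩
        · obtain ⟨V, V', hV, hV', hzV, hyV, hdis⟩ := t2_separation hzy
          refine ⟨R ⁻¹' V, mem_nhdsWithin_of_mem_nhds (hR.continuousAt (hV.mem_nhds hzV)),
            F ⁻¹' V', hF.continuousAt (hV'.mem_nhds hyV), fun x₁ hx₁ z' hz' hzx => ?_⟩
          exfalso
          have h1 : R z' ∈ V := hz'
          rw [hzx] at h1
          exact hdis.le_bot ⟨h1, hx₁⟩
    obtain ⟨U, hU, hUk⟩ := key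
    filter_upwards [hΩ y hy, hU, hF.continuousAt.eventually hQev] with y' h1 h2 h3
    refine ⟨h1, ?_⟩
    rintro ⟨z', hz', hr⟩
    exact hUk y' h2 z' (h3 z' hz') hz' hr
  obtain ⟨z₀, hz₀⟩ := hne
  have h1 : (F ⁻¹' Tᶜ ∩ (A ∩ A')).Nonempty := by
    refine hpre A A' hAo hAo' ?_ ?_ ?_
    · intro y hy
      by_cases h : ∃ z, R z = F y ∧ rel y (ψ z)
      · exact Or.inl ⟨hy, h⟩
      · exact Or.inr ⟨hy, h⟩
    · have h2 : F (ψ z₀) ∉ T := by rw [hFψ]; exact hz₀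
      exact ⟨ψ z₀, h2, h2, z₀, (hFψ z₀).symm, hrefl _⟩
    · exact ⟨x, hx, hx, hcon⟩
  obtain ⟨y, -, hyA, hyA'⟩ := h1
  exact hyA'.2 hyA.2

/-! ### The stabiliser of a component -/

section
variable {E Y Γ : Type*} [TopologicalSpace E] [Group Γ] [MulAction Γ E]

/-- the stabiliser in `K` of the component of `x` -/
def stab (F : E → Y) (K : Subgroup Γ) (hcont : ∀ k : Γ, Continuous fun y : E => k • y)
    (hK : ∀ k ∈ K, ∀ y, F (k • y) = F y) (x : E) : Subgroup Γ where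
  carrier := {k | k ∈ K ∧ Sm F x (k • x)}
  mul_mem' := by
    rintro a b ⟨ha, ha'⟩ ⟨hb, hb'⟩
    refine ⟨K.mul_mem ha hb, ?_⟩
    have h1 := hb'.smul hcont hK ha
    rw [smul_smul] at h1
    exact ha'.trans h1
  one_mem' := ⟨K.one_mem, by rw [one_smul]; exact Sm.refl x⟩
  inv_mem' := by
    rintro a ⟨ha, ha'⟩
    refine ⟨K.inv_mem ha, ?_⟩
    have h1 := ha'.smul hcont hK (K.inv_mem ha)
    rw [smul_smul, inv_mul_cancel, one_smul] at h1
    exact h1.symm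

theorem stab_main (F : E → Y) (K : Subgroup Γ) (hcont : ∀ k : Γ, Continuous fun y : E => k • y)
    (hK : ∀ k ∈ K, ∀ y, F (k • y) = F y) (x : E) {Z : Type*} {S₀ : Set Z} (hS₀ : S₀.Finite)
    (ψ : Z → E) (hall : ∀ y, F y = F x → ∃ z ∈ S₀, Sm F y (ψ z)) :
    ∃ S : Subgroup Γ, S ≤ K ∧ (S.subgroupOf K).FiniteIndex ∧
      (∀ s ∈ S, ∀ y, Sm F x y → Sm F x (s • y)) ∧
      ∀ Q₀ : Set E, IsCompact Q₀ → (∀ y, F y = F x → ∃ k ∈ K, k • y ∈ Q₀) →
        ∃ Q : Set E, IsCompact Q ∧ ∀ y, Sm F x y → ∃ s ∈ S, s • y ∈ Q := by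
  set S := stab F K hcont hK x with hS
  have hSK : S ≤ K := fun k hk => hk.1
  have hmem : ∀ k, k ∈ S ↔ k ∈ K ∧ Sm F x (k • x) := fun k => Iff.rfl
  have hfin : Finite (K ⧸ S.subgroupOf K) := by
    have h1 : ∀ k : K, ∃ z : S₀, Sm F ((k : Γ) • x) (ψ z) := fun k => by
      obtain ⟨z, hz, h⟩ := hall ((k : Γ) • x) (hK k k.2 x)
      exact ⟨⟨z, hz⟩, h⟩
    choose f hf using h1
    have := hS₀.to_subtype
    refine Finite.of_injective (fun q : K ⧸ S.subgroupOf K => f q.out) ?_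
    intro q q' hqq
    have h2 : Sm F ((q.out : Γ) • x) ((q'.out : Γ) • x) := by
      have h3 := hf q.out
      have h4 := hf q'.out
      have h5 : f q.out = f q'.out := hqq
      rw [h5] at h3
      exact h3.trans h4.symm
    have h3 := h2.smul hcont hK (K.inv_mem (q.out).2)
    rw [smul_smul, inv_mul_cancel, one_smul, smul_smul] at h3
    have h4 : (q.out)⁻¹ * q'.out ∈ S.subgroupOf K := by
      rw [Subgroup.mem_subgroupOf, hmem]
      exact ⟨((q.out)⁻¹ * q'.out).2, h3⟩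
    have h5 : (QuotientGroup.mk q.out : K ⧸ S.subgroupOf K) = QuotientGroup.mk q'.out :=
      QuotientGroup.eq.2 h4
    rw [QuotientGroup.out_eq', QuotientGroup.out_eq'] at h5
    exact h5
  refine ⟨S, hSK, Subgroup.finiteIndex_of_finite_quotient, ?_, ?_⟩
  · intro s hs y hy
    have h1 := hy.smul hcont hK hs.1
    exact hs.2.trans h1
  · intro Q₀ hQ₀ hcov
    refine ⟨⋃ q : K ⧸ S.subgroupOf K, (fun y => ((q.out : K) : Γ)⁻¹ • y) '' Q₀,
      isCompact_iUnion fun q => hQ₀.image (hcont _), fun y hy => ?_⟩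
    obtain ⟨k, hk, hky⟩ := hcov y hy.eq
    set q : K ⧸ S.subgroupOf K := QuotientGroup.mk ⟨k, hk⟩ with hq
    have h1 : (QuotientGroup.mk q.out : K ⧸ S.subgroupOf K) = QuotientGroup.mk ⟨k, hk⟩ := by
      rw [QuotientGroup.out_eq']
    have h2 := QuotientGroup.eq.1 h1
    rw [Subgroup.mem_subgroupOf] at h2
    refine ⟨((q.out : K) : Γ)⁻¹ * k, h2, mem_iUnion.2 ⟨q, k • y, hky, ?_⟩⟩
    show ((q.out : K) : Γ)⁻¹ • k • y = _
    rw [smul_smul]

end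

/-! ### Regular points on the image of `Φ` -/

theorem reg_of {n : ℕ} {X : Type} [TopologicalSpace X] [ChartedSpace (Cm n) X]
    [IsManifold 𝓘(ℂ, Cm n) ω X] {E : Type} [TopologicalSpace E] {p : E → X}
    (hp : IsCoveringMap p) {w : Chart n X → Cm n → Matrix (Fin n) (Fin n) ℂ} {N : ℕ}
    {F : E → Cm N} {B : ℝ} (hF : HolB p w F B) {Φ : Cm n → X}
    (hΦ : ContMDiff 𝓘(ℂ, Cm n) 𝓘(ℂ, Cm n) ω Φ) {Φl : Cm n → E} (hΦl : Continuous Φl)
    (hpΦ : ∀ ζ, p (Φl ζ) = Φ ζ) {ζ : Cm n}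
    (hs : Function.Surjective (fderiv ℂ (fun ζ => F (Φl ζ)) ζ)) : Reg (n := n) p F (Φl ζ) := by
  obtain ⟨e, ε, hε, hy, -, -⟩ := exists_ch (n := n) hp (Φl ζ) univ_mem
  rw [hε.reg_iff hp hF hy]
  have hd : DifferentiableAt ℂ (F ∘ ε.symm) (ε (Φl ζ)) :=
    (hε.diff hF _ (ε.map_source hy)).differentiableAt (ε.open_target.mem_nhds (ε.map_source hy))
  have he : DifferentiableAt ℂ (fun ξ => e (Φ ξ)) ζ := by
    have h1 : ContMDiffAt 𝓘(ℂ, Cm n) 𝓘(ℂ, Cm n) ω (fun ξ => e (Φ ξ)) ζ := by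
      refine ContMDiffAt.comp ζ (g := e) ?_ (hΦ ζ)
      refine chart_contMDiffAt ?_
      have := hε.at hy
      rwa [hpΦ] at this
    exact (contMDiffAt_iff_contDiffAt.1 h1).differentiableAt (by simp)
  have hev : ∀ᶠ ξ in 𝓝 ζ, Φl ξ ∈ ε.source :=
    hΦl.continuousAt.eventually (ε.open_source.mem_nhds hy)
  have h1 : (fun ξ => ε (Φl ξ)) =ᶠ[𝓝 ζ] fun ξ => e (Φ ξ) := by
    filter_upwards [hev] with ξ hξ
    rw [hε.eq _ hξ, hpΦ]
  have he' : DifferentiableAt ℂ (fun ξ => ε (Φl ξ)) ζ := he.congr_of_eventuallyEq h1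
  have h2 : (fun ξ => F (Φl ξ)) =ᶠ[𝓝 ζ] fun ξ => (F ∘ ε.symm) (ε (Φl ξ)) := by
    filter_upwards [hev] with ξ hξ
    rw [Function.comp_apply, ε.left_inv hξ]
  rw [h2.fderiv_eq] at hs
  have h3 : fderiv ℂ (fun ξ => (F ∘ ε.symm) (ε (Φl ξ))) ζ =
      (fderiv ℂ (F ∘ ε.symm) (ε (Φl ζ))).comp (fderiv ℂ (fun ξ => ε (Φl ξ)) ζ) :=
    fderiv_comp (g := F ∘ ε.symm) (f := fun ξ => ε (Φl ξ)) _ hd he'
  rw [h3] at hs
  intro v
  obtain ⟨u, hu⟩ := hs v
  exact ⟨_, hu⟩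

/-- **WS4C** -/
theorem s4cStmt : S4cStmt := by
  intro h4a h4b n X _ _ _ _ _ _ w hw Φ hΦ E Γ _ _ _ _ p hG G K N F c hAl Φl hΦl hpΦ P hP hsurj
  obtain ⟨B, hB⟩ := hAl.hol
  have hFc : Continuous F := alb_continuous hG.cov hAl
  have hKF : ∀ k ∈ K, ∀ y, F (k • y) = F y := fun k hk y => K_smul hAl hk y
  have hPe : (fun ζ => F (Φl ζ)) = fun ζ : Cm n => fun i => eval ζ (P i) := by
    funext ζ i
    exact hP ζ i
  obtain ⟨ℓ, R, a, ha, hℓ, hRc, hPR, hfin, hopen, hprop, z₀, hz₀⟩ := plane P (by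
    rw [← hPe]; exact hsurj)
  have hreg : ∃ y, Reg (n := n) p F y := by
    obtain ⟨ζ, hζ⟩ := hsurj
    exact ⟨_, reg_of hG.cov hB hΦ hΦl hpΦ hζ⟩
  obtain ⟨T, hT, hTi, haT, hcrit, hpre⟩ := h4a n X w hw E Γ p hG G K N F c hAl hreg a ha
  have haT' : ∀ v, v ∉ T → eval v a ≠ 0 := fun v hv h0 => hv (haT v h0)
  have hFψ : ∀ z, F (Φl (ℓ z)) = R z := by
    intro z
    funext i
    rw [hP, hPR]
  have hne : ∃ z, R z ∉ T := by
    by_contra hcon
    push Not at hcon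
    have h1 : T ∈ 𝓝 (R z₀) := hz₀ (Filter.mem_map.2 (univ_mem' hcon))
    have h2 := mem_interior_iff_mem_nhds.2 h1
    rw [hTi] at h2
    exact h2
  refine ⟨T, hT, hTi, fun x hx => ?_⟩
  have hr : ∀ y₀ : Cm N, y₀ ∉ T → ∀ y, F y = y₀ → Reg (n := n) p F y := by
    intro y₀ hy₀ y hy
    by_contra h
    exact hy₀ (hy ▸ hcrit y h)
  refine ⟨hr _ hx, ?_⟩
  have hmeet : ∀ y, F y ∉ T → ∃ z, R z = F y ∧ Sm F y (Φl (ℓ z)) := by
    intro y hy
    refine all_meet F hFc T hT hpre (Sm F) Sm.refl ?_ R hRc (fun z => Φl (ℓ z)) (hΦl.comp hℓ) hFψ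
      (fun z hz => hopen z (haT' _ hz)) (fun v hv => hprop v (haT' v hv)) hne y hy
    intro y y' hyy hyT
    exact (h4b n X w hw E Γ p hG G K N F c hAl (F y) (hr _ hyT)).1 y y' rfl hyy.symm
  obtain ⟨S, hSK, hSf, hS1, hS2⟩ := stab_main F K hG.cont hKF x (hfin (F x) (haT' _ hx))
    (fun z => Φl (ℓ z)) (fun y hy => by
      obtain ⟨z, h1, h2⟩ := hmeet y (by rw [hy]; exact hx)
      exact ⟨z, by show R z = F x; rw [h1, hy], h2⟩)
  obtain ⟨-, h2, Q₀, hQ₀, hQ₁⟩ := h4b n X w hw E Γ p hG G K N F c hAl (F x) (hr _ hx)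
  obtain ⟨Q, hQ, hQy⟩ := hS2 Q₀ hQ₀ hQ₁
  exact ⟨S, hSK, hSf, hS1, h2 x rfl, Q, hQ, hQy⟩

end Vale.Agent.P284.H287.S4c
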