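import Vale.Agent.P284.H287.V14L

/-! # P284, block V14A (helper287): almost pluriharmonic functions of bounded gradient -/

open scoped Manifold ContDiff Topology Pointwise ComplexConjugate ComplexOrder
open Filter Set Metric MeasureTheory

noncomputable section

namespace Vale.Agent.P284.H287.V

open Vale.Agent.P272.K Vale.Agent.P284.H248 Vale.Agent.P284.H894 Vale.Agent.P284.H894.G
open Vale.Agent.P284.H894.V Vale.Agent.P284.H35.V

variable {n : ℕ} {Γ : Type} [Group Γ] (C : Coc n Γ)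

lemma V_sub (a : C.I) : C.V a ⊆ C.Ω a :=
  ball_subset_ball (by have := C.r_pos a; linarith)

lemma W_sub (a : C.I) : C.W a ⊆ C.V a :=
  ball_subset_ball (by have := C.r_pos a; linarith)

lemma clV_sub (a : C.I) : closedBall (C.c a) (3 * C.r a) ⊆ C.Ω a :=
  closedBall_subset_ball (by have := C.r_pos a; linarith)

variable {C}

lemma intV {G : Cm n → ℝ} {a : C.I} (h : ContinuousOn G (C.Ω a)) : IntegrableOn G (C.V a) :=
  ((h.mono (clV_sub C a)).integrableOn_compact (isCompact_closedBall _ _)).mono_set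
    ball_subset_closedBall

lemma vol_cont (K : KM C) (a : C.I) : ContinuousOn (vol (K.w a)) (C.Ω a) := by
  intro z hz
  refine ContinuousAt.continuousWithinAt ?_
  have h1 : ContinuousAt (K.w a) z :=
    continuousAt_pi.2 fun i => continuousAt_pi.2 fun j => ((K.ku a).smooth z hz i j).continuousAt
  have h2 : Continuous fun A : Matrix (Fin n) (Fin n) ℂ => A.det := continuous_id.matrix_det
  exact Complex.continuous_re.continuousAt.comp (h2.continuousAt.comp h1)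

lemma lam_le_Lam (K : KM C) : K.lam ≤ K.Lam := by
  obtain ⟨a⟩ := C.ne
  have h : C.c a ∈ C.Ω a := mem_ball_self (by have := C.r_pos a; linarith)
  exact (K.vol_low a _ h).trans (K.vol_up a _ h)

lemma Lam_pos (K : KM C) : 0 < K.Lam := K.lam_pos.trans_le (lam_le_Lam K)

lemma d1_le (hP : VPStmt) (K : KM C) (f : Γ → C.I → Cm n → ℝ) (γ : Γ) (a : C.I) {z : Cm n}
    (hz : z ∈ C.Ω a) :
    D1 (f γ a) z ≤ K.Lam / K.lam * (Gr K f f γ a z * vol (K.w a) z) := by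
  have hl := K.lam_pos
  have hL := Lam_pos K
  have hpos := (K.ku a).pos z hz
  have h1 := (hP.ell (K.w a) (f γ a) z K.lam K.Lam hpos K.lam_pos (K.low a z hz) (K.up a z hz)).1
  have h2 : 0 ≤ Gr K f f γ a z := (hP.nonneg (K.w a) (f γ a) z hpos).1
  have h3 := K.vol_low a z hz
  calc D1 (f γ a) z ≤ K.Lam * Gr K f f γ a z := h1
    _ = K.Lam / K.lam * (Gr K f f γ a z * K.lam) := by field_simp
    _ ≤ _ := by gcongr

lemma d2_le (hP : VPStmt) (K : KM C) (f : Γ → C.I → Cm n → ℝ) (γ : Γ) (a : C.I) {z : Cm n}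
    (hz : z ∈ C.Ω a) (hs : ContDiffAt ℝ ∞ (f γ a) z) :
    D2 (f γ a) z ≤ K.Lam ^ 2 / K.lam * (Hh K f f γ a z * vol (K.w a) z) := by
  have hl := K.lam_pos
  have hL := Lam_pos K
  have hpos := (K.ku a).pos z hz
  have h1 := (hP.ell (K.w a) (f γ a) z K.lam K.Lam hpos K.lam_pos (K.low a z hz)
    (K.up a z hz)).2.2 hs
  have h2 : 0 ≤ Hh K f f γ a z := (hP.nonneg (K.w a) (f γ a) z hpos).2.1 hs
  have h3 := K.vol_low a z hz
  calc D2 (f γ a) z ≤ K.Lam ^ 2 * Hh K f f γ a z := h1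
    _ = K.Lam ^ 2 / K.lam * (Hh K f f γ a z * K.lam) := by field_simp
    _ ≤ _ := by gcongr

lemma gr_le (hP : VPStmt) (K : KM C) (f : Γ → C.I → Cm n → ℝ) (γ : Γ) (a : C.I) {z : Cm n}
    (hz : z ∈ C.Ω a) :
    Gr K f f γ a z * vol (K.w a) z ≤ K.Lam / K.lam * D1 (f γ a) z := by
  have hl := K.lam_pos
  have hL := Lam_pos K
  have hpos := (K.ku a).pos z hz
  have h1 : K.lam * Gr K f f γ a z ≤ D1 (f γ a) z :=
    (hP.ell (K.w a) (f γ a) z K.lam K.Lam hpos K.lam_pos (K.low a z hz) (K.up a z hz)).2.1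
  have h2 : 0 ≤ Gr K f f γ a z := (hP.nonneg (K.w a) (f γ a) z hpos).1
  have h3 := K.vol_up a z hz
  calc Gr K f f γ a z * vol (K.w a) z ≤ Gr K f f γ a z * K.Lam := by gcongr
    _ = K.Lam / K.lam * (K.lam * Gr K f f γ a z) := by field_simp
    _ ≤ _ := by gcongr

section sup
variable {f : Γ → C.I → Cm n → ℝ} (hf : IsTst C f)
include hf

lemma ev_zero {γ : Γ} (hγ : γ ∉ hf.fin.toFinset) {a : C.I} {z : Cm n} (hz : z ∈ C.V a) :
    f γ a =ᶠ[𝓝 z] fun _ => 0 := by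
  filter_upwards [isOpen_ball.mem_nhds hz] with y hy
  by_contra hc
  exact hγ (hf.fin.mem_toFinset.2 ⟨a, y, hy, hc⟩)

lemma D1_out {γ : Γ} (hγ : γ ∉ hf.fin.toFinset) {a : C.I} {z : Cm n} (hz : z ∈ C.V a) :
    D1 (f γ a) z = 0 := by
  rw [D1_congr (ev_zero hf hγ hz), D1_zero]

lemma D2_out {γ : Γ} (hγ : γ ∉ hf.fin.toFinset) {a : C.I} {z : Cm n} (hz : z ∈ C.V a) :
    D2 (f γ a) z = 0 := by
  rw [D2_congr (ev_zero hf hγ hz), D2_zero]

lemma Gr_out (K : KM C) {γ : Γ} (hγ : γ ∉ hf.fin.toFinset) {a : C.I} {z : Cm n}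
    (hz : z ∈ C.V a) : Gr K f f γ a z = 0 := by
  have h1 : (fun y => (f γ a y : ℂ)) =ᶠ[𝓝 z] fun _ => 0 := by
    filter_upwards [ev_zero hf hγ hz] with y hy; rw [hy]; simp
  unfold Gr gr
  simp [dz_congr h1, dz_const]

lemma Hh_out (K : KM C) {γ : Γ} (hγ : γ ∉ hf.fin.toFinset) {a : C.I} {z : Cm n}
    (hz : z ∈ C.V a) : Hh K f f γ a z = 0 := by
  unfold Hh hh
  simp [cHess_congr (ev_zero hf hγ hz), cHess_zero]

lemma cont_D1 (γ : Γ) (a : C.I) : ContinuousOn (D1 (f γ a)) (C.Ω a) := fun z hz =>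
  (contAt_D1 (hf.smooth γ a z hz)).continuousWithinAt

lemma cont_D2 (γ : Γ) (a : C.I) : ContinuousOn (D2 (f γ a)) (C.Ω a) := fun z hz =>
  (contAt_D2 (hf.smooth γ a z hz)).continuousWithinAt

lemma sum_d1 (hP : VPStmt) (h3 : V3Stmt) (h5 : V5Concl) (P : PU C) (K : KM C) (a : C.I) :
    ∑ γ ∈ hf.fin.toFinset, ∫ z in C.V a, D1 (f γ a) z ≤
      K.Lam / K.lam * Int P K (Gr K f f) := by
  have hl := K.lam_pos
  have hL := Lam_pos K
  have hfam := (h5.fam C K f f hf hf).2.1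
  have h1 := h3.le C P K (Gr K f f) hfam
    (fun γ a z hz => (hP.nonneg (K.w a) (f γ a) z ((K.ku a).pos z hz)).1) a
  rw [tsum_eq_sum (s := hf.fin.toFinset) (fun γ hγ =>
    setIntegral_eq_zero_of_forall_eq_zero fun z hz => by simp [Gr_out hf K hγ hz])] at h1
  calc ∑ γ ∈ hf.fin.toFinset, ∫ z in C.V a, D1 (f γ a) z
      ≤ ∑ γ ∈ hf.fin.toFinset, K.Lam / K.lam * ∫ z in C.V a, Gr K f f γ a z * vol (K.w a) z := by
        refine Finset.sum_le_sum fun γ _ => ?_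
        rw [← integral_const_mul]
        refine setIntegral_mono_on (intV (cont_D1 hf γ a))
          ((intV ((hfam.cont γ a).mul (vol_cont K a))).const_mul _) measurableSet_ball
          fun z hz => d1_le hP K f γ a (V_sub C a hz)
    _ = K.Lam / K.lam * ∑ γ ∈ hf.fin.toFinset, ∫ z in C.V a, Gr K f f γ a z * vol (K.w a) z := by
        rw [Finset.mul_sum]
    _ ≤ _ := by gcongr

lemma sum_d2 (hP : VPStmt) (h3 : V3Stmt) (h5 : V5Concl) (P : PU C) (K : KM C) (a : C.I) :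
    ∑ γ ∈ hf.fin.toFinset, ∫ z in C.V a, D2 (f γ a) z ≤
      K.Lam ^ 2 / K.lam * Int P K (Hh K f f) := by
  have hl := K.lam_pos
  have hL := Lam_pos K
  have hfam := (h5.fam C K f f hf hf).2.2.1
  have h1 := h3.le C P K (Hh K f f) hfam
    (fun γ a z hz => (hP.nonneg (K.w a) (f γ a) z ((K.ku a).pos z hz)).2.1
      (hf.smooth γ a z hz)) a
  rw [tsum_eq_sum (s := hf.fin.toFinset) (fun γ hγ =>
    setIntegral_eq_zero_of_forall_eq_zero fun z hz => by simp [Hh_out hf K hγ hz])] at h1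
  calc ∑ γ ∈ hf.fin.toFinset, ∫ z in C.V a, D2 (f γ a) z
      ≤ ∑ γ ∈ hf.fin.toFinset,
          K.Lam ^ 2 / K.lam * ∫ z in C.V a, Hh K f f γ a z * vol (K.w a) z := by
        refine Finset.sum_le_sum fun γ _ => ?_
        rw [← integral_const_mul]
        refine setIntegral_mono_on (intV (cont_D2 hf γ a))
          ((intV ((hfam.cont γ a).mul (vol_cont K a))).const_mul _) measurableSet_ball
          fun z hz => d2_le hP K f γ a (V_sub C a hz) (hf.smooth γ a z (V_sub C a hz))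
    _ = K.Lam ^ 2 / K.lam *
          ∑ γ ∈ hf.fin.toFinset, ∫ z in C.V a, Hh K f f γ a z * vol (K.w a) z := by
        rw [Finset.mul_sum]
    _ ≤ _ := by gcongr

lemma int_gr_le (hP : VPStmt) (h3 : V3Stmt) (h5 : V5Concl) (P : PU C) (K : KM C) :
    Int P K (Gr K f f) ≤ Fintype.card C.I * (K.Lam / K.lam) *
      ∑ a, ∑ γ ∈ hf.fin.toFinset, ∫ z in C.W a, D1 (f γ a) z := by
  have hl := K.lam_pos
  have hL := Lam_pos K
  have hfam := (h5.fam C K f f hf hf).2.1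
  have h1 := h3.ge C P K (Gr K f f) hfam
    (fun γ a z hz => (hP.nonneg (K.w a) (f γ a) z ((K.ku a).pos z hz)).1)
  rw [tsum_eq_sum (s := hf.fin.toFinset) (fun γ hγ => Finset.sum_eq_zero fun a _ =>
    setIntegral_eq_zero_of_forall_eq_zero fun z hz => by
      simp [Gr_out hf K hγ (W_sub C a hz)])] at h1
  refine h1.trans ?_
  rw [mul_assoc]
  refine mul_le_mul_of_nonneg_left ?_ (Nat.cast_nonneg _)
  rw [Finset.sum_comm, Finset.mul_sum]
  refine Finset.sum_le_sum fun a _ => ?_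
  rw [Finset.mul_sum]
  refine Finset.sum_le_sum fun γ _ => ?_
  rw [← integral_const_mul]
  refine setIntegral_mono_on ((intV ((hfam.cont γ a).mul (vol_cont K a))).mono_set (W_sub C a))
    (((intV (cont_D1 hf γ a)).mono_set (W_sub C a)).const_mul _) measurableSet_ball
    fun z hz => gr_le hP K f γ a (V_sub C a (W_sub C a hz))

lemma int_hh_nonneg (hP : VPStmt) (P : PU C) (K : KM C) : 0 ≤ Int P K (Hh K f f) := by
  unfold V.Int
  refine tsum_nonneg fun γ => Finset.sum_nonneg fun a _ =>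
    setIntegral_nonneg measurableSet_ball fun z hz => ?_
  have h := hP.nonneg (K.w a) (f γ a) z ((K.ku a).pos z (V_sub C a hz))
  exact mul_nonneg (mul_nonneg (P.nonneg _ _ _) (h.2.1 (hf.smooth γ a z (V_sub C a hz)))) h.2.2.le

/-- the mollified functions carry the energy -/
lemma sum_d1_W {δ : ℝ} {η : Cm n → ℝ} {B : ℝ} (hδ : 0 < δ) (hδ' : ∀ a, 4 * δ ≤ C.r a)
    (hη : MolP n δ η B) (a : C.I) (A : ℝ)
    (hA : ∀ z ∈ C.W a, ∀ e : Cm n, ‖e‖ ≤ 1 →
      ∑ γ ∈ hf.fin.toFinset, (fderiv ℝ (mo η (f γ a)) z e) ^ 2 ≤ A) :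
    ∑ γ ∈ hf.fin.toFinset, ∫ z in C.W a, D1 (f γ a) z ≤
      2 * B * (∑ γ ∈ hf.fin.toFinset, ∫ z in C.V a, D2 (f γ a) z) +
      n * A * volume.real (C.W a) := by
  obtain ⟨hB, -, -, -, -, hm⟩ := hη
  have hr := C.r_pos a
  have hd := hδ' a
  have hs : ∀ γ, ∀ z ∈ closedBall (C.c a) (3 * C.r a), ContDiffAt ℝ ∞ (f γ a) z := fun γ z hz =>
    hf.smooth γ a z (clV_sub C a hz)
  have hm1 : ∀ γ, ∀ z ∈ ball (C.c a) (2 * C.r a), ContDiffAt ℝ ∞ (mo η (f γ a)) z := fun γ =>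
    (hm (C.c a) (2 * C.r a) (3 * C.r a) (by linarith) (by linarith) (f γ a) (hs γ)).1
  have hm2 : ∀ γ, ∫ z in C.W a, D1 (fun y => f γ a y - mo η (f γ a) y) z ≤
      B * ∫ z in C.V a, D2 (f γ a) z := fun γ =>
    (hm (C.c a) (C.r a) (3 * C.r a) hr (by linarith) (f γ a) (hs γ)).2.2.1
  have hsub : closedBall (C.c a) (C.r a) ⊆ ball (C.c a) (2 * C.r a) :=
    closedBall_subset_ball (by linarith)
  have hWi : ∀ G : Cm n → ℝ, ContinuousOn G (ball (C.c a) (2 * C.r a)) →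
      IntegrableOn G (C.W a) := fun G hG =>
    ((hG.mono hsub).integrableOn_compact (isCompact_closedBall _ _)).mono_set
      ball_subset_closedBall
  have hWs : C.W a ⊆ ball (C.c a) (2 * C.r a) := ball_subset_ball (by linarith)
  have h2V : ball (C.c a) (2 * C.r a) ⊆ C.Ω a := ball_subset_ball (by linarith)
  have hi1 : ∀ γ, IntegrableOn (D1 (mo η (f γ a))) (C.W a) := fun γ =>
    hWi _ fun z hz => (contAt_D1 (hm1 γ z hz)).continuousWithinAt
  have hi2 : ∀ γ, IntegrableOn (D1 fun y => f γ a y - mo η (f γ a) y) (C.W a) := fun γ =>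
    hWi _ fun z hz => (contAt_D1 ((hf.smooth γ a z (h2V hz)).sub (hm1 γ z hz))).continuousWithinAt
  have h1 : ∀ γ, ∫ z in C.W a, D1 (f γ a) z ≤
      2 * B * (∫ z in C.V a, D2 (f γ a) z) + 2 * ∫ z in C.W a, D1 (mo η (f γ a)) z := by
    intro γ
    calc ∫ z in C.W a, D1 (f γ a) z
        ≤ ∫ z in C.W a, (2 * D1 (fun y => f γ a y - mo η (f γ a) y) z +
            2 * D1 (mo η (f γ a)) z) :=
          setIntegral_mono_on ((intV (cont_D1 hf γ a)).mono_set (W_sub C a))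
            (((hi2 γ).const_mul 2).add ((hi1 γ).const_mul 2)) measurableSet_ball
            fun z hz => D1_le_two (hf.smooth γ a z (h2V (hWs hz))) (hm1 γ z (hWs hz))
      _ = 2 * (∫ z in C.W a, D1 (fun y => f γ a y - mo η (f γ a) y) z) +
            2 * ∫ z in C.W a, D1 (mo η (f γ a)) z := by
          rw [integral_add ((hi2 γ).const_mul 2) ((hi1 γ).const_mul 2), integral_const_mul,
            integral_const_mul]
      _ ≤ _ := by
          have := hm2 γ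
          linarith
  have h2 : ∑ γ ∈ hf.fin.toFinset, ∫ z in C.W a, D1 (mo η (f γ a)) z ≤
      n * A / 2 * volume.real (C.W a) := by
    rw [← integral_finsetSum _ fun γ _ => hi1 γ]
    calc ∫ z in C.W a, ∑ γ ∈ hf.fin.toFinset, D1 (mo η (f γ a)) z
        ≤ ∫ z in C.W a, (n * A / 2 : ℝ) := by
          refine setIntegral_mono_on (integrable_finsetSum _ fun γ _ => hi1 γ) ?_
            measurableSet_ball fun z hz => ?_
          · exact integrableOn_const (by exact measure_ball_lt_top.ne)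
          · exact sum_D1_le _ (fun γ => mo η (f γ a)) z
              (fun γ _ => (hm1 γ z (hWs hz)).differentiableAt (by simp)) A (hA z hz)
      _ = _ := by rw [setIntegral_const, smul_eq_mul, mul_comm]
  calc ∑ γ ∈ hf.fin.toFinset, ∫ z in C.W a, D1 (f γ a) z
      ≤ ∑ γ ∈ hf.fin.toFinset, (2 * B * (∫ z in C.V a, D2 (f γ a) z) +
          2 * ∫ z in C.W a, D1 (mo η (f γ a)) z) := Finset.sum_le_sum fun γ _ => h1 γ
    _ = 2 * B * (∑ γ ∈ hf.fin.toFinset, ∫ z in C.V a, D2 (f γ a) z) +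
          2 * ∑ γ ∈ hf.fin.toFinset, ∫ z in C.W a, D1 (mo η (f γ a)) z := by
        rw [Finset.sum_add_distrib, ← Finset.mul_sum, ← Finset.mul_sum]
    _ ≤ _ := by linarith

end sup

lemma sum_shift (F : Finset Γ) (g : Γ → ℝ) (h0 : ∀ x, 0 ≤ g x) (hF : ∀ x, x ∉ F → g x = 0)
    (γ : Γ) : ∑ x ∈ F, g (x * γ) ≤ ∑ x ∈ F, g x := by
  classical
  have h1 : ∑ x ∈ F, g (x * γ) = ∑ x ∈ F.map (mulRightEmbedding γ), g x := by
    rw [Finset.sum_map]; rfl
  rw [h1, ← Finset.sum_filter_add_sum_filter_not (F.map (mulRightEmbedding γ)) (· ∈ F)]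
  have h2 : ∑ x ∈ (F.map (mulRightEmbedding γ)).filter (fun x => x ∉ F), g x = 0 :=
    Finset.sum_eq_zero fun x hx => hF x (Finset.mem_filter.1 hx).2
  rw [h2, add_zero]
  exact Finset.sum_le_sum_of_subset_of_nonneg (fun x hx => (Finset.mem_filter.1 hx).2)
    fun x _ _ => h0 x


section main
variable {f : Γ → C.I → Cm n → ℝ} (hf : IsTst C f)
include hf

/-- a point with a large derivative -/
lemma exists_pt (hP : VPStmt) (h3 : V3Stmt) (h5 : V5Concl) (P : PU C) (K : KM C)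
    {δ : ℝ} {η : Cm n → ℝ} {B : ℝ} (hδ : 0 < δ) (hδ' : ∀ a, 4 * δ ≤ C.r a)
    (hη : MolP n δ η B) {k1 k2 c₁ ε₁ : ℝ}
    (hk1 : k1 = (Fintype.card C.I : ℝ) * (K.Lam / K.lam) * (n * ∑ a, volume.real (C.W a)))
    (hk2 : k2 = (Fintype.card C.I : ℝ) * (K.Lam / K.lam) *
      ((Fintype.card C.I : ℝ) * (2 * B * (K.Lam ^ 2 / K.lam))))
    (hc : k1 * c₁ ≤ 1 / 4) (he : k2 * ε₁ ≤ 1 / 4) (_hc0 : 0 < c₁)
    (hE : 0 < V.Int P K (Gr K f f))
    (hH : V.Int P K (Hh K f f) ≤ ε₁ * V.Int P K (Gr K f f)) :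
    ∃ b, ∃ z ∈ C.W b, ∃ e : Cm n, ‖e‖ ≤ 1 ∧
      c₁ * V.Int P K (Gr K f f) < ∑ γ ∈ hf.fin.toFinset, (fderiv ℝ (mo η (f γ b)) z e) ^ 2 := by
  have hl := K.lam_pos
  have hL := Lam_pos K
  have hB := hη.1
  by_contra hcon
  push Not at hcon
  have h1 : ∀ a, ∑ γ ∈ hf.fin.toFinset, ∫ z in C.W a, D1 (f γ a) z ≤
      2 * B * ((K.Lam ^ 2 / K.lam) * V.Int P K (Hh K f f)) +
        n * (c₁ * V.Int P K (Gr K f f)) * volume.real (C.W a) := by
    intro a
    have h2 := sum_d1_W hf hδ hδ' hη a (c₁ * V.Int P K (Gr K f f))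
      (fun z hz e he => hcon a z hz e he)
    have h4 := sum_d2 hf hP h3 h5 P K a
    have : 2 * B * (∑ γ ∈ hf.fin.toFinset, ∫ z in C.V a, D2 (f γ a) z) ≤
        2 * B * ((K.Lam ^ 2 / K.lam) * V.Int P K (Hh K f f)) := by gcongr
    linarith
  have h2 := int_gr_le hf hP h3 h5 P K
  have hH0 : 0 ≤ V.Int P K (Hh K f f) := int_hh_nonneg hf hP P K
  set E := V.Int P K (Gr K f f)
  set H := V.Int P K (Hh K f f)
  set N : ℝ := (Fintype.card C.I : ℝ) with hN
  have hN0 : 0 ≤ N := Nat.cast_nonneg _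
  set L1 : ℝ := K.Lam / K.lam with hL1
  set L2 : ℝ := K.Lam ^ 2 / K.lam with hL2
  have hL1p : 0 < L1 := by positivity
  have hL2p : 0 < L2 := by positivity
  have h4 : ∑ a, ∑ γ ∈ hf.fin.toFinset, ∫ z in C.W a, D1 (f γ a) z ≤
      N * (2 * B * (L2 * H)) + n * (c₁ * E) * ∑ a, volume.real (C.W a) := by
    calc _ ≤ ∑ a, (2 * B * (L2 * H) + n * (c₁ * E) * volume.real (C.W a)) :=
          Finset.sum_le_sum fun a _ => h1 a
      _ = _ := by
          rw [Finset.sum_add_distrib, Finset.sum_const, Finset.card_univ, nsmul_eq_mul,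
            ← Finset.mul_sum]
  have h6 : E ≤ k2 * H + k1 * (c₁ * E) := by
    calc E ≤ N * L1 * (N * (2 * B * (L2 * H)) + n * (c₁ * E) * ∑ a, volume.real (C.W a)) :=
          h2.trans (by gcongr)
      _ = _ := by rw [hk1, hk2]; ring
  have h7 : k1 * (c₁ * E) ≤ E / 4 := by nlinarith
  have hk20 : 0 ≤ k2 := by rw [hk2]; positivity
  have h8 : k2 * H ≤ E / 4 := by
    calc k2 * H ≤ k2 * (ε₁ * E) := by gcongr
      _ = k2 * ε₁ * E := by ring
      _ ≤ 1 / 4 * E := by gcongr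
      _ = _ := by ring
  linarith

lemma comb_smooth (F : Finset Γ) (v : Γ → ℝ) (γ : Γ) (a : C.I) {z : Cm n} (hz : z ∈ C.Ω a) :
    ContDiffAt ℝ ∞ (fun z => ∑ g ∈ F, v g * f (g * γ) a z) z :=
  ContDiffAt.sum fun g _ => contDiffAt_const.mul (hf.smooth (g * γ) a z hz)

lemma comb_d1 (hP : VPStmt) (h3 : V3Stmt) (h5 : V5Concl) (P : PU C) (K : KM C) (v : Γ → ℝ)
    (γ : Γ) (a : C.I) :
    ∫ z in C.V a, D1 (fun z => ∑ g ∈ hf.fin.toFinset, v g * f (g * γ) a z) z ≤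
      (∑ g ∈ hf.fin.toFinset, v g ^ 2) * (K.Lam / K.lam * V.Int P K (Gr K f f)) := by
  have h1 : ∫ z in C.V a, D1 (fun z => ∑ g ∈ hf.fin.toFinset, v g * f (g * γ) a z) z ≤
      ∫ z in C.V a, (∑ g ∈ hf.fin.toFinset, v g ^ 2) *
        ∑ g ∈ hf.fin.toFinset, D1 (f (g * γ) a) z := by
    refine setIntegral_mono_on (intV fun z hz => ?_) (Integrable.const_mul
      (integrable_finsetSum _ fun g _ => intV (cont_D1 hf (g * γ) a)) _) measurableSet_ball
      fun z hz => ?_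
    · exact (contAt_D1 (comb_smooth hf _ v γ a hz)).continuousWithinAt
    · exact D1_comb _ v (fun g => f (g * γ) a) z
        fun g _ => hf.smooth (g * γ) a z (V_sub C a hz)
  rw [integral_const_mul, integral_finsetSum _ fun g _ => intV (cont_D1 hf (g * γ) a)] at h1
  have h2 := sum_shift hf.fin.toFinset (fun g => ∫ z in C.V a, D1 (f g a) z)
    (fun g => setIntegral_nonneg measurableSet_ball fun z _ => D1_nonneg _ _)
    (fun g hg => setIntegral_eq_zero_of_forall_eq_zero fun z hz => D1_out hf hg hz) γ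
  refine h1.trans (mul_le_mul_of_nonneg_left (h2.trans (sum_d1 hf hP h3 h5 P K a)) ?_)
  exact Finset.sum_nonneg fun _ _ => sq_nonneg _

lemma comb_d2 (hP : VPStmt) (h3 : V3Stmt) (h5 : V5Concl) (P : PU C) (K : KM C) (v : Γ → ℝ)
    (γ : Γ) (a : C.I) :
    ∫ z in C.V a, D2 (fun z => ∑ g ∈ hf.fin.toFinset, v g * f (g * γ) a z) z ≤
      (∑ g ∈ hf.fin.toFinset, v g ^ 2) * (K.Lam ^ 2 / K.lam * V.Int P K (Hh K f f)) := by
  have h1 : ∫ z in C.V a, D2 (fun z => ∑ g ∈ hf.fin.toFinset, v g * f (g * γ) a z) z ≤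
      ∫ z in C.V a, (∑ g ∈ hf.fin.toFinset, v g ^ 2) *
        ∑ g ∈ hf.fin.toFinset, D2 (f (g * γ) a) z := by
    refine setIntegral_mono_on (intV fun z hz => ?_) (Integrable.const_mul
      (integrable_finsetSum _ fun g _ => intV (cont_D2 hf (g * γ) a)) _) measurableSet_ball
      fun z hz => ?_
    · exact (contAt_D2 (comb_smooth hf _ v γ a hz)).continuousWithinAt
    · exact D2_comb _ v (fun g => f (g * γ) a) z
        fun g _ => hf.smooth (g * γ) a z (V_sub C a hz)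
  rw [integral_const_mul, integral_finsetSum _ fun g _ => intV (cont_D2 hf (g * γ) a)] at h1
  have h2 := sum_shift hf.fin.toFinset (fun g => ∫ z in C.V a, D2 (f g a) z)
    (fun g => setIntegral_nonneg measurableSet_ball fun z _ => D2_nonneg _ _)
    (fun g hg => setIntegral_eq_zero_of_forall_eq_zero fun z hz => D2_out hf hg hz) γ
  refine h1.trans (mul_le_mul_of_nonneg_left (h2.trans (sum_d2 hf hP h3 h5 P K a)) ?_)
  exact Finset.sum_nonneg fun _ _ => sq_nonneg _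

lemma comb_fderiv {δ : ℝ} {η : Cm n → ℝ} {B : ℝ} (hδ : 0 < δ) (hδ' : ∀ a, 4 * δ ≤ C.r a)
    (hη : MolP n δ η B) (F : Finset Γ) (v : Γ → ℝ) (b : C.I) {z₀ : Cm n} (hz₀ : z₀ ∈ C.W b)
    (e : Cm n) :
    fderiv ℝ (mo η (fun z => ∑ g ∈ F, v g * f (g * 1) b z)) z₀ e =
      ∑ g ∈ F, v g * fderiv ℝ (mo η (f g b)) z₀ e := by
  obtain ⟨-, hηs, -, hη0, -, hm⟩ := hη
  have hr := C.r_pos b
  have hd := hδ' b
  have hm1 : ∀ γ, DifferentiableAt ℝ (mo η (f γ b)) z₀ := fun γ =>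
    ((hm (C.c b) (C.r b) (3 * C.r b) hr (by linarith) (f γ b)
      (fun z hz => hf.smooth γ b z (clV_sub C b hz))).1 z₀ hz₀).differentiableAt (by simp)
  have h1 : mo η (fun z => ∑ g ∈ F, v g * f (g * 1) b z) =ᶠ[𝓝 z₀]
      fun z => ∑ g ∈ F, v g * mo η (f g b) z := by
    filter_upwards [isOpen_ball.mem_nhds hz₀] with z hz
    simp only [mul_one]
    refine mo_comb hηs hη0 F v (fun g => f g b) z fun g _ => ?_
    intro y hy
    have hy2 : y ∈ C.Ω b := by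
      rw [mem_closedBall] at hy
      rw [mem_ball] at hz
      show y ∈ ball _ _
      rw [mem_ball]
      calc dist y (C.c b) ≤ dist y z + dist z (C.c b) := dist_triangle _ _ _
        _ < 4 * C.r b := by linarith
    exact (hf.smooth g b y hy2).continuousAt.continuousWithinAt
  rw [h1.fderiv_eq, fderiv_fun_sum (A := fun g z => v g * mo η (f g b) z)
    fun g _ => (hm1 g).const_mul (v g), _root_.sum_apply]
  refine Finset.sum_congr rfl fun g _ => ?_
  rw [fderiv_const_mul (hm1 g)]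
  rfl

end main

/-- **V14A**. -/
theorem v14AStmt : V14AStmt := by
  intro hP h3 h5 n Γ _ C P K hex δ η B hδ hδ' hη
  have hl := K.lam_pos
  have hL := Lam_pos K
  have hB := hη.1
  obtain ⟨k1, hk1⟩ : ∃ k1 : ℝ, k1 = (Fintype.card C.I : ℝ) * (K.Lam / K.lam) *
    (n * ∑ a, volume.real (C.W a)) := ⟨_, rfl⟩
  obtain ⟨k2, hk2⟩ : ∃ k2 : ℝ, k2 = (Fintype.card C.I : ℝ) * (K.Lam / K.lam) *
      ((Fintype.card C.I : ℝ) * (2 * B * (K.Lam ^ 2 / K.lam))) := ⟨_, rfl⟩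
  have hk10 : 0 ≤ k1 := by
    have : 0 ≤ ∑ a, volume.real (C.W a) := Finset.sum_nonneg fun _ _ => measureReal_nonneg
    rw [hk1]; positivity
  have hk20 : 0 ≤ k2 := by rw [hk2]; positivity
  obtain ⟨L1, hL1⟩ : ∃ L1 : ℝ, L1 = K.Lam / K.lam := ⟨_, rfl⟩
  obtain ⟨L2, hL2⟩ : ∃ L2 : ℝ, L2 = K.Lam ^ 2 / K.lam := ⟨_, rfl⟩
  have hL1p : 0 < L1 := by rw [hL1]; positivity
  have hL2p : 0 < L2 := by rw [hL2]; positivity
  obtain ⟨c₁, hc1⟩ : ∃ c : ℝ, c = 1 / (4 * (k1 + 1)) := ⟨_, rfl⟩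
  have hc1p : 0 < c₁ := by rw [hc1]; positivity
  refine ⟨L1 / c₁, fun ε hε => ?_⟩
  obtain ⟨ε', hε'⟩ : ∃ e : ℝ, e = min (1 / (4 * (k2 + 1))) (ε * c₁ / L2) := ⟨_, rfl⟩
  have hε'p : 0 < ε' := by rw [hε']; exact lt_min (by positivity) (by positivity)
  obtain ⟨f, hf, hlt⟩ := hex ε' hε'p
  have hH0 : 0 ≤ V.Int P K (Hh K f f) := int_hh_nonneg hf hP P K
  have hEp : 0 < V.Int P K (Gr K f f) := by
    by_contra hc
    push Not at hc
    have : ε' * V.Int P K (Gr K f f) ≤ 0 := mul_nonpos_of_nonneg_of_nonpos hε'p.le hc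
    linarith
  obtain ⟨b, z₀, hz₀, e, he, hS⟩ := exists_pt hf hP h3 h5 P K hδ hδ' hη hk1 hk2 (c₁ := c₁)
    (ε₁ := ε') (by
      rw [hc1, mul_one_div, div_le_div_iff₀ (by positivity) (by norm_num)]
      linarith) (by
      have h9 : k2 * (1 / (4 * (k2 + 1))) ≤ 1 / 4 := by
        rw [mul_one_div, div_le_div_iff₀ (by positivity) (by norm_num)]
        linarith
      refine le_trans (mul_le_mul_of_nonneg_left ?_ hk20) h9
      rw [hε']; exact min_le_left _ _) hc1p hEp hlt.le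
  obtain ⟨S, hSdef⟩ : ∃ S : ℝ, S = ∑ γ ∈ hf.fin.toFinset,
    (fderiv ℝ (mo η (f γ b)) z₀ e) ^ 2 := ⟨_, rfl⟩
  rw [← hSdef] at hS
  have hSp : 0 < S := lt_trans (by positivity) hS
  have hv2 : ∑ g ∈ hf.fin.toFinset, (fderiv ℝ (mo η (f g b)) z₀ e / S) ^ 2 = 1 / S := by
    simp only [div_pow]
    rw [← Finset.sum_div, ← hSdef]
    field_simp
  refine ⟨fun γ a z => ∑ g ∈ hf.fin.toFinset, (fderiv ℝ (mo η (f g b)) z₀ e / S) *
    f (g * γ) a z, ?_, ?_, ?_, ?_, ?_⟩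
  · exact fun γ a z hz => comb_smooth hf _ _ γ a hz
  · intro γ a b z hz
    refine Finset.sum_congr rfl fun g _ => ?_
    rw [hf.compat (g * γ) a b z hz, mul_assoc]
  · intro γ a
    refine (comb_d1 hf hP h3 h5 P K _ γ a).trans ?_
    rw [hv2, ← hL1, one_div_mul_eq_div, div_le_div_iff₀ hSp hc1p]
    calc L1 * V.Int P K (Gr K f f) * c₁ = L1 * (c₁ * V.Int P K (Gr K f f)) := by ring
      _ ≤ L1 * S := by gcongr
  · intro γ a
    refine (comb_d2 hf hP h3 h5 P K _ γ a).trans ?_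
    rw [hv2, ← hL2, one_div_mul_eq_div, div_le_iff₀ hSp]
    have h6 : V.Int P K (Hh K f f) ≤ ε * c₁ / L2 * V.Int P K (Gr K f f) := by
      refine hlt.le.trans (mul_le_mul_of_nonneg_right ?_ hEp.le)
      rw [hε']; exact min_le_right _ _
    calc L2 * V.Int P K (Hh K f f) ≤ L2 * (ε * c₁ / L2 * V.Int P K (Gr K f f)) := by gcongr
      _ = ε * (c₁ * V.Int P K (Gr K f f)) := by field_simp
      _ ≤ ε * S := by gcongr
  · refine ⟨b, z₀, hz₀, e, he, le_of_eq ?_⟩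
    rw [comb_fderiv hf hδ hδ' hη _ _ b hz₀ e]
    have h2 : ∀ g ∈ hf.fin.toFinset, (fderiv ℝ (mo η (f g b)) z₀ e / S) *
        fderiv ℝ (mo η (f g b)) z₀ e = (fderiv ℝ (mo η (f g b)) z₀ e) ^ 2 / S := by
      intro g _
      ring
    rw [Finset.sum_congr rfl h2, ← Finset.sum_div, ← hSdef, div_self hSp.ne']

end Vale.Agent.P284.H287.V
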